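import Vale.Agent.P259.Disc.Hemi

/-!
P259: prescribed boundary of a cylinder over a disc, in a contractible space.
-/

open Set Metric unitInterval

noncomputable section

namespace Vale.Agent.P259.Disc

variable {Y : Type*} [TopologicalSpace Y] [ContractibleSpace Y]

/-- Bottom, top and side of a cylinder extend to the cylinder. -/
theorem exists_cylinder {n : ℕ} (f0 f1 : C(Dn n, Y)) (S : C(Sn n × I, Y))
    (h0 : ∀ z, S (z, 0) = f0 (incl z)) (h1 : ∀ z, S (z, 1) = f1 (incl z)) :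
    ∃ H : C(Dn n × I, Y), (∀ x, H (x, 0) = f0 x) ∧ (∀ x, H (x, 1) = f1 x) ∧
      ∀ z r, H (incl z, r) = S (z, r) := by
  classical
  let cyl : C(Dn n × I, Ball (EuclideanSpace ℝ (Fin n) × ℝ)) :=
    ⟨fun p => ⟨(p.1.1, 2 * (p.2 : ℝ) - 1), mem_closedBall_zero_iff.2
      (max_le (ball_norm_le p.1) (by
        rw [Real.norm_eq_abs, abs_le]; constructor <;> linarith [p.2.2.1, p.2.2.2]))⟩,
      Continuous.subtype_mk (by fun_prop) _⟩
  let px : Sph (EuclideanSpace ℝ (Fin n) × ℝ) → Dn n := fun q =>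
    ⟨q.1.1, mem_closedBall_zero_iff.2 ((norm_fst_le q.1).trans (mem_sphere_zero_iff_norm.1 q.2).le)⟩
  let tm : Sph (EuclideanSpace ℝ (Fin n) × ℝ) → I := fun q =>
    projIcc 0 1 zero_le_one ((q.1.2 + 1) / 2)
  let gs : Sph (EuclideanSpace ℝ (Fin n) × ℝ) → Y := fun q =>
    if hq : ‖q.1.1‖ = 1 then S (⟨q.1.1, mem_sphere_zero_iff_norm.2 hq⟩, tm q)
    else if q.1.2 ≤ 0 then f0 (px q) else f1 (px q)
  have hpx : Continuous px := by fun_prop
  have htm : Continuous tm := by fun_prop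
  set A : Set (Sph (EuclideanSpace ℝ (Fin n) × ℝ)) := {q | ‖q.1.1‖ = 1}
  set B : Set (Sph (EuclideanSpace ℝ (Fin n) × ℝ)) := {q | q.1.2 = -1}
  set B' : Set (Sph (EuclideanSpace ℝ (Fin n) × ℝ)) := {q | q.1.2 = 1}
  have htB : ∀ q ∈ B, tm q = 0 := fun q hq => by
    have : q.1.2 = -1 := hq
    simp [tm, this]
  have htB' : ∀ q ∈ B', tm q = 1 := fun q hq => by
    have : q.1.2 = 1 := hq
    simp [tm, this]
  have hcov : ∀ q, q ∈ A ∪ (B ∪ B') := by
    intro q
    have hq : max ‖q.1.1‖ ‖q.1.2‖ = 1 := mem_sphere_zero_iff_norm.1 q.2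
    rcases max_choice ‖q.1.1‖ ‖q.1.2‖ with h' | h'
    · exact Or.inl (show ‖q.1.1‖ = 1 by rw [← h']; exact hq)
    · rw [h', Real.norm_eq_abs] at hq
      rcases (abs_eq zero_le_one).1 hq with h' | h'
      · exact Or.inr (Or.inr h')
      · exact Or.inr (Or.inl h')
  have hgA : ContinuousOn gs A := by
    rw [continuousOn_iff_continuous_domRestrict]
    rw [show A.domRestrict gs = fun q : A => S (⟨q.1.1.1, mem_sphere_zero_iff_norm.2 q.2⟩, tm q.1)
      from funext fun q => dif_pos q.2]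
    exact S.continuous.comp (Continuous.prodMk (Continuous.subtype_mk (by fun_prop) _)
      (htm.comp continuous_subtype_val))
  have hgB : ContinuousOn gs B := by
    refine (f0.continuous.comp hpx).continuousOn.congr fun q hq => ?_
    by_cases hn : ‖q.1.1‖ = 1
    · rw [show gs q = _ from dif_pos hn, htB q hq, h0]
      rfl
    · rw [show gs q = _ from dif_neg hn,
        if_pos (show q.1.2 ≤ 0 by rw [show q.1.2 = -1 from hq]; norm_num)]
      rfl
  have hgB' : ContinuousOn gs B' := by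
    refine (f1.continuous.comp hpx).continuousOn.congr fun q hq => ?_
    by_cases hn : ‖q.1.1‖ = 1
    · rw [show gs q = _ from dif_pos hn, htB' q hq, h1]
      rfl
    · rw [show gs q = _ from dif_neg hn,
        if_neg (show ¬q.1.2 ≤ 0 by rw [show q.1.2 = 1 from hq]; norm_num)]
      rfl
  have hB : IsClosed B := isClosed_eq (by fun_prop) continuous_const
  have hB' : IsClosed B' := isClosed_eq (by fun_prop) continuous_const
  have hA : IsClosed A := isClosed_eq (by fun_prop) continuous_const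
  have hgs : Continuous gs := by
    rw [← continuousOn_univ, ← show A ∪ (B ∪ B') = univ from eq_univ_of_forall hcov]
    exact hgA.union_of_isClosed (hgB.union_of_isClosed hgB' hB hB') hA (hB.union hB')
  obtain ⟨W, hW⟩ := exists_filler (E := EuclideanSpace ℝ (Fin n) × ℝ) ⟨gs, hgs⟩
  refine ⟨W.comp cyl, fun x => ?_, fun x => ?_, fun z r => ?_⟩
  · have hm : (x.1, (-1 : ℝ)) ∈ sphere (0 : EuclideanSpace ℝ (Fin n) × ℝ) 1 := by
      rw [mem_sphere_zero_iff_norm, Prod.norm_def]; simp [ball_norm_le x]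
    show W (cyl (x, 0)) = f0 x
    rw [show cyl (x, 0) = incl ⟨_, hm⟩ from Subtype.ext (by simp [cyl]), hW]
    show gs ⟨_, hm⟩ = f0 x
    by_cases hn : ‖x.1‖ = 1
    · rw [show gs ⟨_, hm⟩ = _ from dif_pos hn, htB _ (show (-1 : ℝ) = -1 from rfl), h0]
      rfl
    · rw [show gs ⟨_, hm⟩ = _ from dif_neg hn, if_pos (show (-1 : ℝ) ≤ 0 by norm_num)]
  · have hm : (x.1, (1 : ℝ)) ∈ sphere (0 : EuclideanSpace ℝ (Fin n) × ℝ) 1 := by
      rw [mem_sphere_zero_iff_norm, Prod.norm_def]; simp [ball_norm_le x]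
    show W (cyl (x, 1)) = f1 x
    rw [show cyl (x, 1) = incl ⟨_, hm⟩ from Subtype.ext (by simp [cyl]; norm_num), hW]
    show gs ⟨_, hm⟩ = f1 x
    by_cases hn : ‖x.1‖ = 1
    · rw [show gs ⟨_, hm⟩ = _ from dif_pos hn, htB' _ (show (1 : ℝ) = 1 from rfl), h1]
      rfl
    · rw [show gs ⟨_, hm⟩ = _ from dif_neg hn, if_neg (show ¬(1 : ℝ) ≤ 0 by norm_num)]
  · have hz : ‖z.1‖ = 1 := mem_sphere_zero_iff_norm.1 z.2
    have hm : (z.1, 2 * (r : ℝ) - 1) ∈ sphere (0 : EuclideanSpace ℝ (Fin n) × ℝ) 1 := by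
      rw [mem_sphere_zero_iff_norm, Prod.norm_def]
      show max ‖z.1‖ ‖2 * (r : ℝ) - 1‖ = 1
      rw [hz, max_eq_left]
      rw [Real.norm_eq_abs, abs_le]; constructor <;> linarith [r.2.1, r.2.2]
    show W (cyl (incl z, r)) = S (z, r)
    rw [show cyl (incl z, r) = incl ⟨_, hm⟩ from Subtype.ext rfl, hW]
    show gs ⟨_, hm⟩ = _
    rw [show gs ⟨_, hm⟩ = _ from dif_pos hz]
    congr 2
    show projIcc 0 1 zero_le_one ((2 * (r : ℝ) - 1 + 1) / 2) = r
    rw [show (2 * (r : ℝ) - 1 + 1) / 2 = r by ring]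
    exact projIcc_val _ _

/-- Bottom, top and the two halves of the side of a cylinder extend to the cylinder. -/
theorem exists_box {n : ℕ} (f0 f1 : C(Dn (n + 1), Y)) (s t : C(Dn n × I, Y))
    (s0 : ∀ y, s (y, 0) = f0 (source y)) (s1 : ∀ y, s (y, 1) = f1 (source y))
    (t0 : ∀ y, t (y, 0) = f0 (target y)) (t1 : ∀ y, t (y, 1) = f1 (target y))
    (hst : ∀ (z : Sn n) (r : I), s (incl z, r) = t (incl z, r)) :
    ∃ H : C(Dn (n + 1) × I, Y), (∀ x, H (x, 0) = f0 x) ∧ (∀ x, H (x, 1) = f1 x) ∧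
      (∀ y r, H (source y, r) = s (y, r)) ∧ ∀ y r, H (target y, r) = t (y, r) := by
  obtain ⟨F, hFs, hFt⟩ := exists_glue s.curry t.curry fun z =>
    ContinuousMap.ext fun r => hst z r
  have e : ∀ (r : I) (f : C(Dn (n + 1), Y)), (∀ y, s (y, r) = f (source y)) →
      (∀ y, t (y, r) = f (target y)) → ∀ z, F z r = f (incl z) := fun r f hs ht =>
    congrFun (sphere_ext (F := fun z => F z r) (G := fun z => f (incl z))
      (fun x => (DFunLike.congr_fun (hFs x) r).trans (hs x))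
      fun x => (DFunLike.congr_fun (hFt x) r).trans (ht x))
  obtain ⟨H, H0, H1, HS⟩ := exists_cylinder f0 f1 F.uncurry (e 0 f0 s0 t0) (e 1 f1 s1 t1)
  exact ⟨H, H0, H1, fun y r => (HS (sourceS y) r).trans (DFunLike.congr_fun (hFs y) r),
    fun y r => (HS (targetS y) r).trans (DFunLike.congr_fun (hFt y) r)⟩

/-- Two points of a contractible space are joined. -/
theorem exists_box_zero (f0 f1 : C(Dn 0, Y)) :
    ∃ H : C(Dn 0 × I, Y), (∀ x, H (x, 0) = f0 x) ∧ ∀ x, H (x, 1) = f1 x := by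
  let S : C(Sn 0 × I, Y) :=
    ⟨fun q => isEmptyElim q.1, continuous_iff_continuousAt.2 fun q => isEmptyElim q.1⟩
  obtain ⟨H, H0, H1, -⟩ := exists_cylinder f0 f1 S (fun z => isEmptyElim z) fun z => isEmptyElim z
  exact ⟨H, H0, H1⟩

end Vale.Agent.P259.Disc
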