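import Vale.Agent.P259.Defs

/-!
P259: freeness of a coherator. An extension over a coherator with lifts over lifts has a section.
-/

open CategoryTheory

noncomputable section

namespace Vale.Agent.P259

namespace GlobExt

/-- Composition of maps of globular extensions. -/
def Map.comp {C C' C'' : GlobExt} (f : Map C C') (g : Map C' C'') : Map C C'' where
  map x := g.map (f.map x)
  map_id A := by rw [f.map_id, g.map_id]
  map_comp x y := by rw [f.map_comp, g.map_comp]
  map_ι x := by rw [f.map_ι, g.map_ι]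

theorem Map.parallel {C C' : GlobExt} (F : Map C C') {S : GlobSum} :
    ∀ {n : ℕ} {f g : C.Hom (disc n) S}, Parallel C f g → Parallel C' (F.map f) (F.map g)
  | 0, _, _, _ => trivial
  | m + 1, _, _, h => by
    constructor
    · rw [← F.map_ι, ← F.map_comp, ← F.map_comp, h.1]
    · rw [← F.map_ι, ← F.map_comp, ← F.map_comp, h.2]

/-- The image of a lift. -/
def Map.lift {C C' : GlobExt} (F : Map C C') {n : ℕ} {S : GlobSum} {f g : C.Hom (disc n) S}
    (h : Lift C f g) : Lift C' (F.map f) (F.map g) :=
  ⟨F.map h.1, by rw [← F.map_ι, ← F.map_comp, h.2.1], by rw [← F.map_ι, ← F.map_comp, h.2.2]⟩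

end GlobExt

/-- `p` has lifts over lifts. -/
def LiftsOver {E C : GlobExt} (p : GlobExt.Map E C) : Prop :=
  ∀ (n : ℕ) (S : GlobSum) (f g : E.Hom (disc n) S) (h : Lift C (p.map f) (p.map g)),
    Parallel E f g → ∃ k : Lift E f g, p.map k.1 = h.1

theorem Tower.push_map {C E : GlobExt} (T : Tower C) (s : ∀ k, GlobExt.Map (T.stage k) E)
    (hs : ∀ k (A B : GlobSum) (f : (T.stage k).Hom A B),
      (s (k + 1)).map ((T.next k).map f) = (s k).map f) {A B : GlobSum} (k : ℕ) :
    ∀ (d : ℕ) (f : (T.stage k).Hom A B), (s (k + d)).map (T.push k d f) = (s k).map f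
  | 0, _ => rfl
  | d + 1, f => (hs (k + d) A B _).trans (T.push_map s hs k d f)

theorem Tower.toColim_push {C : GlobExt} (T : Tower C) {A B : GlobSum} (k d : ℕ)
    (f : (T.stage k).Hom A B) : (T.toColim (k + d)).map (T.push k d f) = (T.toColim k).map f :=
  T.push_map T.toColim T.toColim_next k d f

/-- A compatible family on the stages gives a map out of the colimit. -/
theorem Tower.exists_desc {C E : GlobExt} (T : Tower C) (hT : T.IsColimit)
    (s : ∀ k, GlobExt.Map (T.stage k) E)
    (hs : ∀ k (A B : GlobSum) (f : (T.stage k).Hom A B),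
      (s (k + 1)).map ((T.next k).map f) = (s k).map f) :
    ∃ F : GlobExt.Map C E, ∀ k (A B : GlobSum) (f : (T.stage k).Hom A B),
      F.map ((T.toColim k).map f) = (s k).map f := by
  have bump : ∀ {A B : GlobSum} (k m : ℕ) (g : (T.stage k).Hom A B), k ≤ m →
      ∃ g' : (T.stage m).Hom A B,
        (T.toColim m).map g' = (T.toColim k).map g ∧ (s m).map g' = (s k).map g := by
    intro A B k m g hm
    obtain ⟨d, rfl⟩ := Nat.exists_eq_add_of_le hm
    exact ⟨T.push k d g, T.toColim_push k d g, T.push_map s hs k d g⟩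
  have wd : ∀ {A B : GlobSum} (k k' : ℕ) (g : (T.stage k).Hom A B) (g' : (T.stage k').Hom A B),
      (T.toColim k).map g = (T.toColim k').map g' → (s k).map g = (s k').map g' := by
    intro A B k k' g g' e
    obtain ⟨g₁, hg₁, hg₁'⟩ := bump k (max k k') g (le_max_left _ _)
    obtain ⟨g₂, hg₂, hg₂'⟩ := bump k' (max k k') g' (le_max_right _ _)
    obtain ⟨d, hd⟩ := hT _ A B g₁ g₂ (hg₁.trans (e.trans hg₂.symm))
    rw [← hg₁', ← hg₂', ← T.push_map s hs _ d g₁, hd, T.push_map s hs _ d g₂]
  choose kk gg hgg using T.exists_stage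
  refine ⟨GlobExt.Map.mk (fun {A B} f => (s (kk A B f)).map (gg A B f)) (fun A => ?_)
    (fun {A B D} f g => ?_) (fun {A B} f => ?_), fun k A B f => ?_⟩
  · rw [wd _ 0 _ ((T.stage 0).id A) ((hgg A A _).trans ((T.toColim 0).map_id A).symm),
      (s 0).map_id]
  · set a := kk A B f with ha
    set b := kk B D g with hb
    obtain ⟨f', hf, hf'⟩ := bump a (max a b) (gg A B f) (le_max_left _ _)
    obtain ⟨g', hg, hg'⟩ := bump b (max a b) (gg B D g) (le_max_right _ _)
    show (s _).map (gg A D (C.comp f g)) = E.comp ((s a).map (gg A B f)) ((s b).map (gg B D g))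
    rw [wd _ (max a b) _ ((T.stage _).comp f' g') ((hgg A D _).trans (by
        rw [(T.toColim _).map_comp, hf, hg, hgg, hgg])), (s _).map_comp, hf', hg']
  · rw [wd _ 0 _ ((T.stage 0).ι f) ((hgg A B _).trans ((T.toColim 0).map_ι f).symm),
      (s 0).map_ι]
  · exact wd _ k _ f (hgg A B _)

/-- The map out of the zeroth stage. -/
def Tower.start {C : GlobExt} (T : Tower C) (E : GlobExt) : GlobExt.Map (T.stage 0) E where
  map {A B} f := E.ι ((Equiv.ofBijective _ (T.stage_zero A B)).symm f)
  map_id A := by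
    have : (Equiv.ofBijective _ (T.stage_zero A A)).symm ((T.stage 0).id A) = CategoryStruct.id A :=
      (Equiv.symm_apply_eq _).2 ((T.stage 0).ι_id A).symm
    rw [this, E.ι_id]
  map_comp {A B D} f g := by
    have : (Equiv.ofBijective _ (T.stage_zero A D)).symm ((T.stage 0).comp f g) =
        (Equiv.ofBijective _ (T.stage_zero A B)).symm f ≫
          (Equiv.ofBijective _ (T.stage_zero B D)).symm g := by
      refine (Equiv.symm_apply_eq _).2 ?_
      show (T.stage 0).comp f g = (T.stage 0).ι (_ ≫ _)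
      rw [(T.stage 0).ι_comp]
      exact congrArg₂ (T.stage 0).comp ((Equiv.ofBijective _ (T.stage_zero A B)).apply_symm_apply f).symm
        ((Equiv.ofBijective _ (T.stage_zero B D)).apply_symm_apply g).symm
    rw [this, E.ι_comp]
  map_ι {A B} f := by
    rw [show (Equiv.ofBijective _ (T.stage_zero A B)).symm ((T.stage 0).ι f) = f from
      (Equiv.symm_apply_eq _).2 rfl]

/-- A map with lifts over lifts to a coherator has a section. -/
theorem IsCoherator.exists_section {C E : GlobExt} (hC : IsCoherator C) (p : GlobExt.Map E C)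
    (hp : LiftsOver p) :
    ∃ s : GlobExt.Map C E, ∀ (A B : GlobSum) (f : C.Hom A B), p.map (s.map f) = f := by
  obtain ⟨T, hT⟩ := hC.1
  let Good (k : ℕ) (s : GlobExt.Map (T.stage k) E) : Prop :=
    ∀ (A B : GlobSum) (f : (T.stage k).Hom A B), p.map (s.map f) = (T.toColim k).map f
  have h0 : Good 0 (T.start E) := fun A B f => by
    obtain ⟨f, rfl⟩ := (T.stage_zero A B).2 f
    rw [(T.start E).map_ι, p.map_ι, (T.toColim 0).map_ι]
  have hstep : ∀ k (s : GlobExt.Map (T.stage k) E), Good k s →
      ∃ s' : GlobExt.Map (T.stage (k + 1)) E, Good (k + 1) s' ∧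
        ∀ (A B : GlobSum) (f : (T.stage k).Hom A B), s'.map ((T.next k).map f) = s.map f := by
    intro k s hs
    have hL : ∀ q : T.pairs k, ∃ L : Lift E (s.map q.1.f) (s.map q.1.g),
        p.map L.1 = (T.toColim (k + 1)).map (T.lift k q).1 := by
      intro q
      exact hp _ _ _ _
        ⟨(T.toColim (k + 1)).map (T.lift k q).1, by
          rw [← (T.toColim (k + 1)).map_ι, ← (T.toColim (k + 1)).map_comp, (T.lift k q).2.1,
            T.toColim_next, hs], by
          rw [← (T.toColim (k + 1)).map_ι, ← (T.toColim (k + 1)).map_comp, (T.lift k q).2.2,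
            T.toColim_next, hs]⟩
        (s.parallel q.1.parallel)
    choose L hL using hL
    obtain ⟨s', ⟨h1, h2⟩, -⟩ := T.universal k E s L
    refine ⟨s', ?_, h1⟩
    have key : s'.comp p = T.toColim (k + 1) :=
      (T.universal k C (T.toColim k)
        fun q => ⟨(T.toColim (k + 1)).map (T.lift k q).1, by
          rw [← (T.toColim (k + 1)).map_ι, ← (T.toColim (k + 1)).map_comp, (T.lift k q).2.1,
            T.toColim_next], by
          rw [← (T.toColim (k + 1)).map_ι, ← (T.toColim (k + 1)).map_comp, (T.lift k q).2.2,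
            T.toColim_next]⟩).unique
        ⟨fun A B f => (congrArg p.map (h1 A B f)).trans (hs A B f),
          fun q => (congrArg p.map (h2 q)).trans (hL q)⟩
        ⟨T.toColim_next k, fun _ => rfl⟩
    intro A B f
    exact congrArg (fun G : GlobExt.Map (T.stage (k + 1)) C => G.map f) key
  choose s' hs' hs'' using hstep
  let seq : ∀ k, {s : GlobExt.Map (T.stage k) E // Good k s} := fun k =>
    Nat.rec (motive := fun k => {s : GlobExt.Map (T.stage k) E // Good k s}) ⟨T.start E, h0⟩
      (fun k r => ⟨s' k r.1 r.2, hs' k r.1 r.2⟩) k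
  obtain ⟨F, hF⟩ := T.exists_desc hT (fun k => (seq k).1) fun k A B f => hs'' k _ (seq k).2 A B f
  refine ⟨F, fun A B f => ?_⟩
  obtain ⟨k, g, rfl⟩ := T.exists_stage A B f
  rw [hF]
  exact (seq k).2 A B g

end Vale.Agent.P259
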