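import Vale.Agent.P259.Disc.Globe

/-!
P259: the realisation of a globular sum by discs, its functoriality on `Θ₀`, and its
contractibility.
-/

open Set Metric unitInterval CategoryTheory Opposite

noncomputable section

namespace Vale.Agent.P259.Disc

/-- The disjoint union of the discs of a table. -/
abbrev PreReal (A : GlobSum) : Type := Σ l : Fin (A.len + 1), Dn (A.i l)

/-- The gluing. -/
def RGlue (A : GlobSum) (p q : PreReal A) : Prop :=
  ∃ (l : Fin A.len) (z : Dn (A.j l)),
    p = ⟨l.castSucc, gmap (.bd (A.lt_left l) true) z⟩ ∧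
      q = ⟨l.succ, gmap (.bd (A.lt_right l) false) z⟩

/-- The realisation of a globular sum. -/
def Real (A : GlobSum) : Type := Quot (RGlue A)

instance (A : GlobSum) : TopologicalSpace (Real A) :=
  inferInstanceAs (TopologicalSpace (Quot (RGlue A)))

/-- The point of the realisation given by a point of a disc. -/
def rmk (A : GlobSum) (l : Fin (A.len + 1)) : C(Dn (A.i l), Real A) :=
  ⟨fun x => Quot.mk _ ⟨l, x⟩,
    continuous_quot_mk.comp (@continuous_sigmaMk _ (fun l => Dn (A.i l)) _ l)⟩

theorem rmk_glue (A : GlobSum) (l : Fin A.len) (z : Dn (A.j l)) :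
    rmk A l.castSucc (gmap (.bd (A.lt_left l) true) z) =
      rmk A l.succ (gmap (.bd (A.lt_right l) false) z) :=
  Quot.sound ⟨l, z, rfl, rfl⟩

instance (A : GlobSum) : CompactSpace (Real A) :=
  inferInstanceAs (CompactSpace (Quot (RGlue A)))

theorem real_ext {A : GlobSum} {Y : Sort*} {F G : Real A → Y}
    (h : ∀ l x, F (rmk A l x) = G (rmk A l x)) : F = G := by
  funext p
  induction p using Quot.ind with
  | _ p => exact h p.1 p.2

/-- Maps out of a realisation. -/
def rdesc {A : GlobSum} {Y : Type*} [TopologicalSpace Y] (f : ∀ l, C(Dn (A.i l), Y))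
    (hf : ∀ (l : Fin A.len) z, f l.castSucc (gmap (.bd (A.lt_left l) true) z) =
      f l.succ (gmap (.bd (A.lt_right l) false) z)) : C(Real A, Y) :=
  ⟨Quot.lift (fun p : PreReal A => f p.1 p.2) (by rintro _ _ ⟨l, z, rfl, rfl⟩; exact hf l z),
    continuous_quot_lift _ (continuous_sigma fun l => (f l).continuous)⟩

@[simp] theorem rdesc_rmk {A : GlobSum} {Y : Type*} [TopologicalSpace Y]
    (f : ∀ l, C(Dn (A.i l), Y)) (hf) (l : Fin (A.len + 1)) (x : Dn (A.i l)) :
    rdesc f hf (rmk A l x) = f l x := rfl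

/-! ### Functoriality -/

/-- The map of discs of a cell. -/
def rcell {A : GlobSum} {n : ℕ} : A.Cell n → C(Dn n, Real A) :=
  Quot.lift (fun p => (rmk A p.1).comp (gmap p.2)) (by
    rintro _ _ ⟨l, g, rfl, rfl⟩
    ext x
    show rmk A _ (gmap (g.comp _) x) = rmk A _ (gmap (g.comp _) x)
    rw [gmap_comp, gmap_comp, rmk_glue])

theorem rcell_pull {A : GlobSum} {m n : ℕ} (h : GHom m n) (c : A.Cell n) (x : Dn m) :
    rcell (c.pull h) x = rcell c (gmap h x) := by
  induction c using Quot.ind with
  | _ p => exact congrArg (rmk A p.1) (gmap_comp h p.2 x)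

theorem app_pull {A B : GlobSum} (f : A ⟶ B) {m n : ℕ} (h : GHom m n) (c : A.Cell n) :
    f.app (op ⟨m⟩) (c.pull h) =
      GlobSum.Cell.pull h (f.app (op ⟨n⟩) c : B.Cell n) :=
  ConcreteCategory.congr_hom (f.naturality (X := op ⟨n⟩) (Y := op ⟨m⟩)
    (Quiver.Hom.op (show (⟨m⟩ : Globe) ⟶ ⟨n⟩ from h))) c

/-- The image of the `l`-th cell under a map of `Θ₀`. -/
def cellImage {A B : GlobSum} (f : A ⟶ B) (l : Fin (A.len + 1)) : B.Cell (A.i l) :=
  f.app (op ⟨A.i l⟩) (Quot.mk _ ⟨l, .id _⟩)

/-- The realisation of a map of `Θ₀`. -/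
def rmap {A B : GlobSum} (f : A ⟶ B) : C(Real A, Real B) :=
  rdesc (fun l => rcell (cellImage f l)) fun l z => by
    refine (rcell_pull _ _ z).symm.trans (Eq.trans ?_ (rcell_pull _ _ z))
    refine congrArg (fun c => rcell c z) ((app_pull f _ _).symm.trans (Eq.trans ?_ (app_pull f _ _)))
    refine congrArg (fun c => f.app (op ⟨A.j l⟩) c) (Quot.sound ⟨l, .id _, ?_, ?_⟩) <;> rfl

theorem rmap_rcell {A B : GlobSum} (f : A ⟶ B) {n : ℕ} (c : A.Cell n) (x : Dn n) :
    rmap f (rcell c x) = rcell (f.app (op ⟨n⟩) c : B.Cell n) x := by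
  induction c using Quot.ind with
  | _ p =>
    obtain ⟨l, g⟩ := p
    show rcell (cellImage f l) (gmap g x) = _
    refine (rcell_pull g _ x).symm.trans ?_
    refine congrArg (fun c => rcell c x) ((app_pull f g _).symm.trans ?_)
    refine congrArg (fun c => f.app (op ⟨n⟩) c) ?_
    show (Quot.mk (A.Glue n) (⟨l, g.comp (.id _)⟩ : A.PreCell n) : A.Cell n) = _
    rw [GHom.comp_id']

theorem rmap_id (A : GlobSum) (p : Real A) : rmap (𝟙 A) p = p := by
  revert p
  refine congrFun (real_ext (G := fun p => p) fun l x => ?_)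
  rfl

theorem rmap_comp {A B C : GlobSum} (f : A ⟶ B) (g : B ⟶ C) (p : Real A) :
    rmap (f ≫ g) p = rmap g (rmap f p) := by
  revert p
  refine congrFun (real_ext (G := fun p => rmap g (rmap f p)) fun l x => ?_)
  show rcell (cellImage (f ≫ g) l) x = rmap g (rcell (cellImage f l) x)
  rw [rmap_rcell]
  rfl

/-! ### The realisation of a disc -/

/-- A disc is its own realisation. -/
def discHomeo (n : ℕ) : Real (disc n) ≃ₜ Dn n where
  toFun := rdesc (fun l => Fin.cases (motive := fun l => C(Dn ((disc n).i l), Dn n))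
    (ContinuousMap.id _) (fun l => l.elim0) l) fun l => l.elim0
  invFun := rmk (disc n) 0
  left_inv p := by
    revert p
    refine congrFun (real_ext (G := fun p => p) fun l x => ?_)
    induction l using Fin.cases with
    | zero => rfl
    | succ l => exact l.elim0
  right_inv _ := rfl
  continuous_toFun := ContinuousMap.continuous _
  continuous_invFun := ContinuousMap.continuous _

theorem discHomeo_symm (n : ℕ) (x : Dn n) : (discHomeo n).symm x = rmk (disc n) 0 x := rfl

theorem rmap_discMap {a b : ℕ} (g : GHom a b) (x : Dn a) :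
    rmap (discMap g) (rmk (disc a) 0 x) = rmk (disc b) 0 (gmap g x) := by
  show rcell (cellImage (discMap g) 0) x = _
  show rmk (disc b) 0 (gmap (GHom.comp (.id a) g) x) = _
  rfl

/-- The canonical inclusion of a disc. -/
theorem rmap_incl (A : GlobSum) (l : Fin (A.len + 1)) (x : Dn (A.i l)) :
    rmap (P259.incl A l) (rmk (disc (A.i l)) 0 x) = rmk A l x := rfl

/-! ### Contractibility -/

theorem contractible_cons (i j : ℕ) (A : GlobSum) (h₁ : j < i) (h₂ : j < A.head)
    [ContractibleSpace (Real A)] : ContractibleSpace (Real (GlobSum.cons i j A h₁ h₂)) := by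
  let A' := GlobSum.cons i j A h₁ h₂
  let i' : ∀ l : Fin (A.len + 1), C(Dn (A.i l), Real A') := fun l =>
    Fin.cases (motive := fun l => C(Dn (A.i l), Real A')) (rmk A' 1) (fun k => rmk A' k.succ.succ) l
  let up : C(Real A, Real A') := rdesc i' fun l z => by
    obtain ⟨_ | k, hk⟩ := l
    · exact rmk_glue A' ⟨1, Nat.succ_lt_succ hk⟩ z
    · exact rmk_glue A' ⟨k + 2, Nat.succ_lt_succ hk⟩ z
  let p0 : C(Dn i, Real A) := (rmk A 0).comp ((gmap (.bd h₂ false)).comp (trunc h₁.le))
  let r' : ∀ l : Fin (A'.len + 1), C(Dn (A'.i l), Real A) := fun l =>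
    Fin.cases (motive := fun l => C(Dn (A'.i l), Real A)) p0
      (fun m => Fin.cases (motive := fun m => C(Dn (A'.i m.succ), Real A)) (rmk A 0)
        (fun k => rmk A k.succ) m) l
  let down : C(Real A', Real A) := rdesc r' fun l z => by
    obtain ⟨_ | _ | k, hk⟩ := l
    · exact congrArg (fun w => rmk A 0 (gmap (.bd h₂ false) w)) (trunc_hemiMap h₁ true z)
    · exact rmk_glue A ⟨0, Nat.lt_of_succ_lt_succ hk⟩ z
    · exact rmk_glue A ⟨k + 1, Nat.lt_of_succ_lt_succ hk⟩ z
  have hdu : ∀ p, down (up p) = p := by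
    refine congrFun (real_ext (G := fun p => p) fun l x => ?_)
    induction l using Fin.cases with
    | zero => rfl
    | succ k => rfl
  let Hc : C(Dn i, C(I, Real A')) := ContinuousMap.curry
    ((rmk A' 0).comp (⟨fun q => segment ((q.1, gmap (.bd h₁ true) (trunc h₁.le q.1)), q.2),
      by fun_prop⟩ : C(Dn i × I, Dn i)))
  let cst : ∀ m : Fin A'.len, C(Dn (A'.i m.succ), C(I, Real A')) := fun m =>
    ContinuousMap.curry ((rmk A' m.succ).comp ContinuousMap.fst)
  let H : C(Real A', C(I, Real A')) := rdesc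
    (fun l => Fin.cases (motive := fun l => C(Dn (A'.i l), C(I, Real A'))) Hc cst l) fun l z => by
    obtain ⟨_ | k, hk⟩ := l
    · ext t
      show rmk A' 0 (segment ((gmap (.bd h₁ true) z,
        gmap (.bd h₁ true) (trunc h₁.le (gmap (.bd h₁ true) z))), t)) =
          rmk A' (Fin.succ ⟨0, hk⟩) (gmap (.bd (A'.lt_right ⟨0, hk⟩) false) z)
      rw [show trunc h₁.le (gmap (.bd h₁ true) z) = z from trunc_hemiMap h₁ true z]
      refine Eq.trans (congrArg (rmk A' 0) (Subtype.ext ?_)) (rmk_glue A' ⟨0, hk⟩ z)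
      show (1 - (t : ℝ)) • (hemiMap h₁ true z).1 + (t : ℝ) • (hemiMap h₁ true z).1 = _
      rw [← add_smul]
      simp
      rfl
    · ext t
      exact rmk_glue A' ⟨k + 1, hk⟩ z
  have hH0 : ∀ q, H q 0 = q := by
    refine congrFun (real_ext (G := fun q => q) fun l x => ?_)
    induction l using Fin.cases with
    | zero =>
      show rmk A' 0 (segment ((x, _), (0 : I))) = _
      exact congrArg (rmk A' 0) (Subtype.ext (by simp [segment]))
    | succ k => rfl
  have hH1 : ∀ q, H q 1 = up (down q) := by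
    refine congrFun (real_ext (G := fun q => up (down q)) fun l x => ?_)
    induction l using Fin.cases with
    | zero =>
      show rmk A' 0 (segment ((x, gmap (.bd h₁ true) (trunc h₁.le x)), (1 : I))) =
        rmk A' 1 (gmap (.bd h₂ false) (trunc h₁.le x))
      refine Eq.trans (congrArg (rmk A' 0) (Subtype.ext ?_)) (rmk_glue A' ⟨0, Nat.succ_pos _⟩ (trunc h₁.le x))
      simp [segment]
      rfl
    | succ k =>
      induction k using Fin.cases with
      | zero => rfl
      | succ k => rfl
  refine ContinuousMap.HomotopyEquiv.contractibleSpace (Y := Real A) ?_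
  let K : ContinuousMap.Homotopy (up.comp down) (ContinuousMap.id (Real A')) :=
    { toFun := fun q => H q.2 (unitInterval.symm q.1)
      continuous_toFun := (ContinuousMap.uncurry H).continuous.comp
        (continuous_snd.prodMk (continuous_symm.comp continuous_fst))
      map_zero_left := fun q => by simp [hH1]
      map_one_left := fun q => by simp [hH0] }
  refine ⟨down, up, ⟨K⟩, ?_⟩
  rw [show down.comp up = ContinuousMap.id _ from ContinuousMap.ext hdu]

instance real_contractible : ∀ A : GlobSum, ContractibleSpace (Real A)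
  | ⟨n, [], _⟩ => (discHomeo n).contractibleSpace
  | ⟨i, (j, h') :: r, hv⟩ =>
    have := real_contractible ⟨h', r, hv.2.2⟩
    contractible_cons i j ⟨h', r, hv.2.2⟩ hv.1 hv.2.1
termination_by A => A.rest.length

end Vale.Agent.P259.Disc
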