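import Vale.Agent.P259.Disc.Free
import Vale.Agent.P259.Disc.Real

/-!
P259: every coherator has a disc functor, with `D A` the realisation of the globular sum.
-/

open Set Metric CategoryTheory Opposite

noncomputable section

namespace Vale.Agent.P259.Disc

variable (C : GlobExt)

/-- Maps of `C` with a map of realisations. -/
abbrev pairExt : GlobExt where
  Hom A B := C.Hom A B × C(Real A, Real B)
  id A := (C.id A, ContinuousMap.id _)
  comp f g := (C.comp f.1 g.1, g.2.comp f.2)
  id_comp f := Prod.ext (C.id_comp f.1) rfl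
  comp_id f := Prod.ext (C.comp_id f.1) rfl
  assoc f g h := Prod.ext (C.assoc f.1 g.1 h.1) rfl
  ι f := (C.ι f, rmap f)
  ι_id A := Prod.ext (C.ι_id A) (ContinuousMap.ext fun p => rmap_id A p)
  ι_comp f g := Prod.ext (C.ι_comp f g) (ContinuousMap.ext fun p => rmap_comp f g p)
  preserves B := by
    intro A x hx
    have h1 : Matching (fun A => C.Hom A B) (fun f h => C.comp (C.ι f) h) A (fun l => (x l).1) :=
      fun l => congrArg Prod.fst (hx l)
    obtain ⟨a, ha, hau⟩ := C.preserves B A _ h1
    let F : C(Real A, Real B) := rdesc (fun l => (x l).2.comp (rmk (disc (A.i l)) 0)) fun l z => by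
      have h2 := congrArg (fun q : C.Hom (disc (A.j l)) B × C(Real (disc (A.j l)), Real B) =>
        q.2 (rmk (disc (A.j l)) 0 z)) (hx l)
      have h3 : (x l.castSucc).2 (rmap (glueTgt A l) (rmk (disc (A.j l)) 0 z)) =
          (x l.succ).2 (rmap (glueSrc A l) (rmk (disc (A.j l)) 0 z)) := h2
      rw [glueTgt, glueSrc, rmap_discMap, rmap_discMap] at h3
      exact h3
    refine ⟨(a, F), fun l => Prod.ext (ha l) (ContinuousMap.ext ?_), fun y hy => ?_⟩
    · intro p
      revert p
      refine congrFun (real_ext (G := fun p => (x l).2 p) fun m w => ?_)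
      induction m using Fin.cases with
      | zero => rfl
      | succ m => exact m.elim0
    · refine Prod.ext (hau _ fun l => congrArg Prod.fst (hy l)) (ContinuousMap.ext ?_)
      intro p
      revert p
      refine congrFun (real_ext (G := fun p => F p) fun l w => ?_)
      exact congrArg (fun q : C.Hom (disc (A.i l)) B × C(Real (disc (A.i l)), Real B) =>
        q.2 (rmk (disc (A.i l)) 0 w)) (hy l)

/-- The projection. -/
def pairFst : GlobExt.Map (pairExt C) C where
  map f := f.1
  map_id _ := rfl
  map_comp _ _ := rfl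
  map_ι _ := rfl

/-- Maps on the two hemispheres that agree on the equator extend to the disc. -/
theorem exists_disc_filler {Y : Type*} [TopologicalSpace Y] [ContractibleSpace Y] {n : ℕ}
    (f g : C(Dn n, Y)) (h : ∀ x : Sn n, f (incl x) = g (incl x)) :
    ∃ W : C(Dn (n + 1), Y), (∀ x, W (source x) = f x) ∧ ∀ x, W (target x) = g x := by
  obtain ⟨F, hs, ht⟩ := exists_glue f g h
  obtain ⟨W, hW⟩ := exists_filler F
  exact ⟨W, fun x => (hW _).trans (hs x), fun x => (hW _).trans (ht x)⟩

theorem rmap_src {n : ℕ} (x : Dn n) :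
    rmap (P259.src n) (rmk (disc n) 0 x) = rmk (disc (n + 1)) 0 (source x) :=
  (rmap_discMap _ x).trans (congrArg (rmk (disc (n + 1)) 0) (gmap_source x))

theorem rmap_tgt {n : ℕ} (x : Dn n) :
    rmap (P259.tgt n) (rmk (disc n) 0 x) = rmk (disc (n + 1)) 0 (target x) :=
  (rmap_discMap _ x).trans (congrArg (rmk (disc (n + 1)) 0) (gmap_target x))

theorem liftsOver_pairFst : LiftsOver (pairFst C) := by
  intro n S f g h hpar
  have hag : ∀ x : Sn n, f.2 (rmk (disc n) 0 (Disc.incl x)) = g.2 (rmk (disc n) 0 (Disc.incl x)) := by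
    intro x
    cases n with
    | zero => exact isEmptyElim x
    | succ m =>
      rcases mem_hemisphere x with ⟨y, rfl⟩ | ⟨y, rfl⟩
      · have h' := congrArg (fun q : C.Hom (disc m) S × C(Real (disc m), Real S) =>
          q.2 (rmk (disc m) 0 y)) hpar.1
        have h'' : f.2 (rmap (P259.src m) (rmk (disc m) 0 y)) =
            g.2 (rmap (P259.src m) (rmk (disc m) 0 y)) := h'
        rwa [rmap_src] at h''
      · have h' := congrArg (fun q : C.Hom (disc m) S × C(Real (disc m), Real S) =>
          q.2 (rmk (disc m) 0 y)) hpar.2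
        have h'' : f.2 (rmap (P259.tgt m) (rmk (disc m) 0 y)) =
            g.2 (rmap (P259.tgt m) (rmk (disc m) 0 y)) := h'
        rwa [rmap_tgt] at h''
  obtain ⟨W, hs, ht⟩ := exists_disc_filler (f.2.comp (rmk (disc n) 0)) (g.2.comp (rmk (disc n) 0))
    hag
  let W' : C(Real (disc (n + 1)), Real S) :=
    W.comp ⟨discHomeo (n + 1), (discHomeo (n + 1)).continuous⟩
  refine ⟨⟨(h.1, W'), Prod.ext h.2.1 (ContinuousMap.ext ?_), Prod.ext h.2.2 (ContinuousMap.ext ?_)⟩,
    rfl⟩
  · intro p
    obtain ⟨x, rfl⟩ := (discHomeo n).symm.surjective p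
    show W' (rmap (P259.src n) (rmk (disc n) 0 x)) = _
    rw [rmap_src]
    exact hs x
  · intro p
    obtain ⟨x, rfl⟩ := (discHomeo n).symm.surjective p
    show W' (rmap (P259.tgt n) (rmk (disc n) 0 x)) = _
    rw [rmap_tgt]
    exact ht x

/-- The action of a disc functor: a realisation of every map of `C`, extending `Θ₀`. -/
structure Action where
  /-- The realisation of a map. -/
  map : ∀ {A B : GlobSum}, C.Hom A B → C(Real A, Real B)
  map_id : ∀ A, map (C.id A) = ContinuousMap.id _
  map_comp : ∀ {A B D : GlobSum} (f : C.Hom A B) (g : C.Hom B D),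
    map (C.comp f g) = (map g).comp (map f)
  map_ι : ∀ {A B : GlobSum} (f : A ⟶ B), map (C.ι f) = rmap f

variable {C}

theorem exists_action (hC : IsCoherator C) : Nonempty (Action C) := by
  obtain ⟨s, hs⟩ := hC.exists_section (pairFst C) (liftsOver_pairFst C)
  exact ⟨{ map := fun f => (s.map f).2
           map_id := fun A => congrArg Prod.snd (s.map_id A)
           map_comp := fun f g => congrArg Prod.snd (s.map_comp f g)
           map_ι := fun f => congrArg Prod.snd (s.map_ι f) }⟩

theorem homeo_cg {n : ℕ} : UCompactlyGeneratedSpace.{0} (Dn n) := inferInstance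

instance preReal_cg (A : GlobSum) : UCompactlyGeneratedSpace.{0} (PreReal A) := inferInstance

instance real_cg (A : GlobSum) : UCompactlyGeneratedSpace.{0} (Real A) :=
  uCompactlyGeneratedSpace_of_coinduced (f := Quot.mk (RGlue A)) continuous_quot_mk rfl

/-- The realisation as a compactly generated space. -/
abbrev realSpace (A : GlobSum) : Space := CompactlyGenerated.of.{0, 0} (Real A)

/-- A continuous map of realisations as a map of spaces. -/
def realHom {A B : GlobSum} (F : C(Real A, Real B)) : realSpace A ⟶ realSpace B :=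
  ConcreteCategory.ofHom F

theorem preserves_real (Y : Space) (A : GlobSum) (x : ∀ l, realSpace (disc (A.i l)) ⟶ Y)
    (hx : ∀ l : Fin A.len, realHom (rmap (glueTgt A l)) ≫ x l.castSucc =
      realHom (rmap (glueSrc A l)) ≫ x l.succ) :
    ∃! a : realSpace A ⟶ Y,
      ∀ l, realHom (rmap (P259.incl A l)) ≫ a = x l := by
  let F : C(Real A, Y) := rdesc (fun l => (x l).hom.hom.comp (rmk (disc (A.i l)) 0)) fun l z => by
    have h := ConcreteCategory.congr_hom (hx l) (rmk (disc (A.j l)) 0 z)
    have h' : (x l.castSucc).hom.hom (rmap (glueTgt A l) (rmk (disc (A.j l)) 0 z)) =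
        (x l.succ).hom.hom (rmap (glueSrc A l) (rmk (disc (A.j l)) 0 z)) := h
    rw [glueTgt, glueSrc, rmap_discMap, rmap_discMap] at h'
    exact h'
  refine ⟨ConcreteCategory.ofHom F, fun l => ?_, fun b hb => ?_⟩
  · ext p
    obtain ⟨w, rfl⟩ := (discHomeo (A.i l)).symm.surjective p
    rfl
  · ext p
    revert p
    refine congrFun (real_ext (G := fun p => F p) fun l w => ?_)
    exact ConcreteCategory.congr_hom (hb l) (rmk (disc (A.i l)) 0 w)

/-- The disc functor of an action. -/
def Action.functor (a : Action C) : C.Obj ⥤ Space where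
  obj A := realSpace A
  map {A B} f := realHom (a.map (A := A) (B := B) f)
  map_id A := congrArg realHom (a.map_id A)
  map_comp f g := congrArg realHom (a.map_comp f g)

theorem Action.functor_hom (a : Action C) {A B : GlobSum} (f : A ⟶ B) :
    a.functor.map (C.hom f) = realHom (rmap f) :=
  congrArg realHom (a.map_ι f)

/-- The disc functor of an action. -/
def Action.discFunctor (a : Action C) : DiscFunctor C where
  F := a.functor
  preserves Y := by
    intro A x hx
    obtain ⟨g, hg, hgu⟩ := preserves_real Y A x fun l => by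
      have := hx l
      simp only [a.functor_hom] at this
      exact this
    refine ⟨g, fun l => ?_, fun b hb => hgu b fun l => ?_⟩
    · show a.functor.map (C.hom (P259.incl A l)) ≫ g = x l
      rw [a.functor_hom]
      exact hg l
    · have := hb l
      simp only [a.functor_hom] at this
      exact this
  e n := discHomeo n
  e_src n p i := by
    obtain ⟨x, rfl⟩ := (discHomeo n).symm.surjective p
    rw [a.functor_hom]
    show (discHomeo (n + 1) (rmap (P259.src n) (rmk (disc n) 0 x))).1 i = _
    rw [rmap_src, ← discHomeo_symm, Homeomorph.apply_symm_apply]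
    show snocVec x.1 (-1 * √(1 - ‖x.1‖ ^ 2)) i = _
    simp [snocVec, hemiCoord, coord]
    rfl
  e_tgt n p i := by
    obtain ⟨x, rfl⟩ := (discHomeo n).symm.surjective p
    rw [a.functor_hom]
    show (discHomeo (n + 1) (rmap (P259.tgt n) (rmk (disc n) 0 x))).1 i = _
    rw [rmap_tgt, ← discHomeo_symm, Homeomorph.apply_symm_apply]
    show snocVec x.1 (1 * √(1 - ‖x.1‖ ^ 2)) i = _
    simp [snocVec, hemiCoord, coord]
    rfl

theorem exists_discFunctor (hC : IsCoherator C) : Nonempty (DiscFunctor C) :=
  (exists_action hC).map Action.discFunctor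

end Vale.Agent.P259.Disc
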