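import Vale.Agent.P259.Disc.Retract
import Mathlib.Analysis.SpecialFunctions.Sqrt

/-!
P259: the standard discs, their two boundary hemispheres, and gluing of maps on the two
hemispheres.
-/

open Set Metric unitInterval

noncomputable section

namespace Vale.Agent.P259.Disc

/-- The standard `n`-disc. -/
abbrev Dn (n : ℕ) : Type := Ball (EuclideanSpace ℝ (Fin n))

/-- The standard sphere bounding the `n`-disc. -/
abbrev Sn (n : ℕ) : Type := Sph (EuclideanSpace ℝ (Fin n))

variable {n : ℕ}

/-- Append a last coordinate. -/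
def snocVec (v : EuclideanSpace ℝ (Fin n)) (a : ℝ) : EuclideanSpace ℝ (Fin (n + 1)) :=
  WithLp.toLp 2 (Fin.snoc (WithLp.ofLp v) a)

/-- Forget the last coordinate. -/
def initVec (v : EuclideanSpace ℝ (Fin (n + 1))) : EuclideanSpace ℝ (Fin n) :=
  WithLp.toLp 2 fun i => v i.castSucc

@[fun_prop] theorem continuous_initVec : Continuous (initVec (n := n)) := by
  unfold initVec; fun_prop

theorem continuous_snocVec {X : Type*} [TopologicalSpace X] {f : X → EuclideanSpace ℝ (Fin n)}
    {a : X → ℝ} (hf : Continuous f) (ha : Continuous a) :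
    Continuous fun x => snocVec (f x) (a x) := by
  unfold snocVec
  refine (PiLp.continuous_toLp 2 _).comp (continuous_pi fun i => ?_)
  refine Fin.lastCases ?_ (fun j => ?_) i
  · simpa using ha
  · simpa [Function.comp_def] using (PiLp.continuous_apply 2 (fun _ : Fin n => ℝ) j).comp hf

@[simp] theorem initVec_snocVec (v : EuclideanSpace ℝ (Fin n)) (a : ℝ) :
    initVec (snocVec v a) = v := by
  ext i; simp [initVec, snocVec]

@[simp] theorem last_snocVec (v : EuclideanSpace ℝ (Fin n)) (a : ℝ) :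
    snocVec v a (Fin.last n) = a := by
  simp [snocVec]

theorem snocVec_initVec (v : EuclideanSpace ℝ (Fin (n + 1))) :
    snocVec (initVec v) (v (Fin.last n)) = v := by
  ext i
  refine Fin.lastCases ?_ (fun j => ?_) i <;> simp [snocVec, initVec]

theorem norm_sq_split (v : EuclideanSpace ℝ (Fin (n + 1))) :
    ‖v‖ ^ 2 = ‖initVec v‖ ^ 2 + v (Fin.last n) ^ 2 := by
  simp [EuclideanSpace.norm_sq_eq, Fin.sum_univ_castSucc, initVec, sq_abs]

theorem norm_initVec_le (v : EuclideanSpace ℝ (Fin (n + 1))) : ‖initVec v‖ ≤ ‖v‖ := by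
  have := norm_sq_split v
  nlinarith [norm_nonneg (initVec v), norm_nonneg v, sq_nonneg (v (Fin.last n))]

/-- Projection of a disc onto the disc one dimension lower. -/
def proj : C(Dn (n + 1), Dn n) :=
  ⟨fun x => ⟨initVec x.1, mem_closedBall_zero_iff.2 ((norm_initVec_le _).trans (ball_norm_le x))⟩,
    Continuous.subtype_mk (by fun_prop) _⟩

theorem hemiVal_mem (x : Dn n) (e : ℝ) (he : e ^ 2 = 1) :
    ‖snocVec x.1 (e * √(1 - ‖(x : EuclideanSpace ℝ (Fin n))‖ ^ 2))‖ = 1 := by
  have h := norm_sq_split (snocVec x.1 (e * √(1 - ‖(x : EuclideanSpace ℝ (Fin n))‖ ^ 2)))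
  rw [initVec_snocVec, last_snocVec, mul_pow, he, one_mul, Real.sq_sqrt] at h
  · exact (pow_eq_one_iff_of_nonneg (norm_nonneg _) two_ne_zero).1 (by linarith)
  · nlinarith [ball_norm_le x, norm_nonneg (x : EuclideanSpace ℝ (Fin n))]

/-- The hemisphere with the sign `e`, inside the sphere. -/
def hemiS (e : ℝ) (he : e ^ 2 = 1) : C(Dn n, Sn (n + 1)) :=
  ⟨fun x => ⟨snocVec x.1 (e * √(1 - ‖(x : EuclideanSpace ℝ (Fin n))‖ ^ 2)),
      mem_sphere_zero_iff_norm.2 (hemiVal_mem x e he)⟩,
    Continuous.subtype_mk (continuous_snocVec continuous_subtype_val (by fun_prop)) _⟩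

/-- The source hemisphere in the sphere. -/
def sourceS : C(Dn n, Sn (n + 1)) := hemiS (-1) (by norm_num)

/-- The target hemisphere in the sphere. -/
def targetS : C(Dn n, Sn (n + 1)) := hemiS 1 (by norm_num)

/-- The source hemisphere. -/
def source : C(Dn n, Dn (n + 1)) := incl.comp sourceS

/-- The target hemisphere. -/
def target : C(Dn n, Dn (n + 1)) := incl.comp targetS

theorem proj_hemiS (e : ℝ) (he : e ^ 2 = 1) (x : Dn n) : proj (incl (hemiS e he x)) = x :=
  Subtype.ext (initVec_snocVec _ _)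

@[simp] theorem proj_source (x : Dn n) : proj (source x) = x := proj_hemiS _ _ x

@[simp] theorem proj_target (x : Dn n) : proj (target x) = x := proj_hemiS _ _ x

theorem hemiS_eq_of_norm_one {e e' : ℝ} (he : e ^ 2 = 1) (he' : e' ^ 2 = 1) (x : Sn n) :
    hemiS e he (incl x) = hemiS e' he' (incl x) := by
  refine Subtype.ext ?_
  show snocVec _ _ = snocVec _ _
  simp

theorem sourceS_eq_targetS (x : Sn n) : sourceS (incl x) = targetS (incl x) :=
  hemiS_eq_of_norm_one _ _ x

/-- The globular identities. -/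
theorem source_eq_target (x : Sn n) : source (incl x) = target (incl x) :=
  congrArg incl (sourceS_eq_targetS x)

theorem glob_source (x : Dn n) : source (source x) = target (source x) :=
  source_eq_target (sourceS x)

theorem glob_target (x : Dn n) : source (target x) = target (target x) :=
  source_eq_target (targetS x)

theorem hemiS_proj {e : ℝ} (he : e ^ 2 = 1) (z : Sn (n + 1))
    (hz : 0 ≤ e * (z : EuclideanSpace ℝ (Fin (n + 1))) (Fin.last n)) :
    hemiS e he (proj (incl z)) = z := by
  refine Subtype.ext ?_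
  show snocVec (initVec z.1) (e * √(1 - ‖initVec z.1‖ ^ 2)) = z.1
  have h := norm_sq_split z.1
  rw [mem_sphere_zero_iff_norm.1 z.2] at h
  have h1 : 1 - ‖initVec z.1‖ ^ 2 = (e * z.1 (Fin.last n)) ^ 2 := by
    rw [mul_pow, he]; linarith
  rw [h1, Real.sqrt_sq hz, ← mul_assoc, ← sq, he, one_mul, snocVec_initVec]

/-- Every point of the sphere lies on a hemisphere. -/
theorem mem_hemisphere (z : Sn (n + 1)) :
    (∃ x, sourceS x = z) ∨ ∃ x, targetS x = z := by
  rcases le_total ((z : EuclideanSpace ℝ (Fin (n + 1))) (Fin.last n)) 0 with h | h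
  · exact Or.inl ⟨_, hemiS_proj _ z (by linarith)⟩
  · exact Or.inr ⟨_, hemiS_proj _ z (by linarith)⟩

/-- Maps on the sphere are determined by their two hemispheres. -/
theorem sphere_ext {Y : Type*} {F G : Sn (n + 1) → Y} (hs : ∀ x, F (sourceS x) = G (sourceS x))
    (ht : ∀ x, F (targetS x) = G (targetS x)) : F = G := by
  funext z
  rcases mem_hemisphere z with ⟨x, rfl⟩ | ⟨x, rfl⟩
  · exact hs x
  · exact ht x

/-- Two maps on the hemispheres that agree on the equator glue. -/
theorem exists_glue {Y : Type*} [TopologicalSpace Y] (f g : C(Dn n, Y))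
    (h : ∀ x : Sn n, f (incl x) = g (incl x)) :
    ∃ F : C(Sn (n + 1), Y), (∀ x, F (sourceS x) = f x) ∧ ∀ x, F (targetS x) = g x := by
  classical
  let c : Sn (n + 1) → ℝ := fun z => (z : EuclideanSpace ℝ (Fin (n + 1))) (Fin.last n)
  have hc : Continuous c := by fun_prop
  have heq : ∀ z, c z = 0 → f (proj (incl z)) = g (proj (incl z)) := by
    intro z hz
    have h0 := norm_sq_split z.1
    rw [mem_sphere_zero_iff_norm.1 z.2, show z.1 (Fin.last n) = 0 from hz] at h0
    have h1 : ‖initVec z.1‖ = 1 :=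
      (pow_eq_one_iff_of_nonneg (norm_nonneg _) two_ne_zero).1 (by linarith)
    exact h ⟨initVec z.1, mem_sphere_zero_iff_norm.2 h1⟩
  let F : Sn (n + 1) → Y := fun z => if c z ≤ 0 then f (proj (incl z)) else g (proj (incl z))
  refine ⟨⟨F, Continuous.if_le (by fun_prop) (by fun_prop) hc continuous_const heq⟩,
    fun x => ?_, fun x => ?_⟩
  · have hx : c (sourceS x) ≤ 0 := by
      show snocVec _ _ (Fin.last n) ≤ 0
      rw [last_snocVec]
      nlinarith [Real.sqrt_nonneg (1 - ‖(x : EuclideanSpace ℝ (Fin n))‖ ^ 2)]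
    show (if c (sourceS x) ≤ 0 then _ else _) = f x
    rw [if_pos hx]
    exact congrArg f (proj_source x)
  · show (if c (targetS x) ≤ 0 then _ else _) = g x
    split_ifs with hx
    · have h0 : c (targetS x) = 0 := by
        refine le_antisymm hx ?_
        show 0 ≤ snocVec _ _ (Fin.last n)
        rw [last_snocVec]
        positivity
      rw [heq _ h0]
      exact congrArg g (proj_target x)
    · exact congrArg g (proj_target x)

/-- The zero disc is a point. -/
instance : Subsingleton (Dn 0) := ⟨fun _ _ => Subtype.ext (Subsingleton.elim _ _)⟩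

instance : IsEmpty (Sn 0) :=
  ⟨fun x => by simpa [Subsingleton.elim x.1 0] using mem_sphere_zero_iff_norm.1 x.2⟩

instance (n : ℕ) : Inhabited (Dn n) := ⟨⟨0, by simp⟩⟩

/-- Linear homotopy inside a disc. -/
def segment : C((Dn n × Dn n) × I, Dn n) :=
  ⟨fun p => ⟨(1 - (p.2 : ℝ)) • p.1.1.1 + (p.2 : ℝ) • p.1.2.1,
      (convex_closedBall _ _) p.1.1.2 p.1.2.2 (by linarith [p.2.2.2]) p.2.2.1 (by ring)⟩,
    Continuous.subtype_mk (by fun_prop) _⟩

instance (n : ℕ) : ContractibleSpace (Dn n) :=
  (convex_closedBall (0 : EuclideanSpace ℝ (Fin n)) 1).contractibleSpace ⟨0, by simp⟩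

end Vale.Agent.P259.Disc
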