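import Vale.Agent.P259.Defs
import Vale.Agent.P259.Disc.Hemi

/-!
P259: the discs as a coglobular space.
-/

open Set Metric

noncomputable section

namespace Vale.Agent.P259.Disc

/-- The sign of a hemisphere: negative for the source. -/
def sgn : Bool → ℝ
  | false => -1
  | true => 1

theorem sgn_sq (s : Bool) : sgn s ^ 2 = 1 := by cases s <;> norm_num [sgn]

/-- `(x, ± √(1 - |x|²), 0, …, 0)`. -/
def hemiVec {a b : ℕ} (s : Bool) (x : EuclideanSpace ℝ (Fin a)) : EuclideanSpace ℝ (Fin b) :=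
  WithLp.toLp 2 fun i : Fin b =>
    if h : (i : ℕ) < a then x ⟨i, h⟩
    else if (i : ℕ) = a then sgn s * √(1 - ‖x‖ ^ 2) else 0

theorem hemiVec_lt {a b : ℕ} (s : Bool) (x : EuclideanSpace ℝ (Fin a)) (i : Fin b)
    (h : (i : ℕ) < a) : (hemiVec s x : EuclideanSpace ℝ (Fin b)) i = x ⟨i, h⟩ := by
  simp [hemiVec, h]

theorem hemiVec_eq {a b : ℕ} (s : Bool) (x : EuclideanSpace ℝ (Fin a)) (i : Fin b)
    (h : (i : ℕ) = a) :
    (hemiVec s x : EuclideanSpace ℝ (Fin b)) i = sgn s * √(1 - ‖x‖ ^ 2) := by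
  simp [hemiVec, h]

theorem hemiVec_gt {a b : ℕ} (s : Bool) (x : EuclideanSpace ℝ (Fin a)) (i : Fin b)
    (h : a < (i : ℕ)) : (hemiVec s x : EuclideanSpace ℝ (Fin b)) i = 0 := by
  simp [hemiVec, h.not_gt, h.ne']

theorem norm_hemiVec {a b : ℕ} (h : a < b) (s : Bool) (x : EuclideanSpace ℝ (Fin a))
    (hx : ‖x‖ ≤ 1) : ‖(hemiVec s x : EuclideanSpace ℝ (Fin b))‖ = 1 := by
  refine (pow_eq_one_iff_of_nonneg (norm_nonneg _) two_ne_zero).1 ?_
  obtain ⟨c, rfl⟩ : ∃ c, b = (a + 1) + c := ⟨b - (a + 1), by omega⟩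
  rw [EuclideanSpace.norm_sq_eq, Fin.sum_univ_add, Fin.sum_univ_castSucc]
  have h1 : ∀ i : Fin a, ‖(hemiVec s x : EuclideanSpace ℝ (Fin (a + 1 + c)))
      (Fin.castAdd c i.castSucc)‖ ^ 2 = ‖x i‖ ^ 2 := fun i => by
    rw [hemiVec_lt s x _ (by simp)]
    rfl
  have h2 : ∀ i : Fin c, ‖(hemiVec s x : EuclideanSpace ℝ (Fin (a + 1 + c)))
      (Fin.natAdd (a + 1) i)‖ ^ 2 = 0 := fun i => by
    rw [hemiVec_gt s x _ (by simp; omega)]
    simp
  rw [Finset.sum_eq_zero fun i _ => h2 i, add_zero, Finset.sum_congr rfl fun i _ => h1 i,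
    ← EuclideanSpace.norm_sq_eq, hemiVec_eq s x _ (by simp), norm_mul, mul_pow,
    Real.norm_eq_abs, Real.norm_eq_abs, sq_abs, sq_abs, sgn_sq, one_mul, Real.sq_sqrt]
  · ring
  · nlinarith [norm_nonneg x]

/-- The hemisphere map between two discs. -/
def hemiMap {a b : ℕ} (h : a < b) (s : Bool) : C(Dn a, Dn b) :=
  ⟨fun x => ⟨hemiVec s x.1, mem_closedBall_zero_iff.2 (norm_hemiVec h s x.1 (ball_norm_le x)).le⟩, by
    refine Continuous.subtype_mk ((PiLp.continuous_toLp 2 _).comp (continuous_pi fun i => ?_)) _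
    by_cases h1 : (i : ℕ) < a
    · simp only [h1, dif_pos]; fun_prop
    · by_cases h2 : (i : ℕ) = a
      · simp only [h2, dite_false, if_true, lt_irrefl]; fun_prop
      · simp only [h1, h2, dite_false, if_false]; fun_prop⟩

/-- The map of discs of a map of the globe category. -/
def gmap : {a b : ℕ} → GHom a b → C(Dn a, Dn b)
  | _, _, .id _ => ContinuousMap.id _
  | _, _, .bd h s => hemiMap h s

@[simp] theorem gmap_id (a : ℕ) (x : Dn a) : gmap (.id a) x = x := rfl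

theorem hemiMap_comp {a b c : ℕ} (h : a < b) (h' : b < c) (s s' : Bool) (x : Dn a) :
    hemiMap h' s' (hemiMap h s x) = hemiMap (h.trans h') s x := by
  refine Subtype.ext ?_
  show (hemiVec s' (hemiVec s x.1 : EuclideanSpace ℝ (Fin b)) : EuclideanSpace ℝ (Fin c)) =
    hemiVec s x.1
  ext i
  by_cases hib : (i : ℕ) < b
  · rw [hemiVec_lt s' _ i hib]
    simp [hemiVec]
  · rw [hemiVec_gt s x.1 i (by omega)]
    rcases Nat.eq_or_lt_of_le (Nat.le_of_not_lt hib) with hi | hi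
    · rw [hemiVec_eq s' _ i hi.symm, norm_hemiVec h s x.1 (ball_norm_le x)]
      simp
    · exact hemiVec_gt s' _ i hi

theorem gmap_comp {a b c : ℕ} (f : GHom a b) (g : GHom b c) (x : Dn a) :
    gmap (f.comp g) x = gmap g (gmap f x) := by
  cases f with
  | id => rfl
  | bd h s =>
    cases g with
    | id => rfl
    | bd h' s' => exact (hemiMap_comp h h' s s' x).symm

/-- Forgetting the last coordinates. -/
def trunc {a b : ℕ} (h : a ≤ b) : C(Dn b, Dn a) :=
  ⟨fun y => ⟨WithLp.toLp 2 fun i : Fin a => y.1 (Fin.castLE h i), mem_closedBall_zero_iff.2 (by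
      refine le_trans ?_ (ball_norm_le y)
      obtain ⟨c, rfl⟩ := Nat.exists_eq_add_of_le h
      rw [← sq_le_sq₀ (norm_nonneg _) (norm_nonneg _), EuclideanSpace.norm_sq_eq,
        EuclideanSpace.norm_sq_eq, Fin.sum_univ_add]
      refine le_add_of_le_of_nonneg (le_of_eq (Finset.sum_congr rfl fun i _ => ?_))
        (Finset.sum_nonneg fun i _ => sq_nonneg _)
      rfl)⟩, Continuous.subtype_mk (by fun_prop) _⟩

@[simp] theorem trunc_hemiMap {a b : ℕ} (h : a < b) (s : Bool) (x : Dn a) :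
    trunc h.le (hemiMap h s x) = x := by
  refine Subtype.ext ?_
  ext i
  exact hemiVec_lt s x.1 (Fin.castLE h.le i) i.2

theorem hemiMap_eq_hemiS {n : ℕ} (s : Bool) (x : Dn n) :
    hemiMap n.lt_succ_self s x = incl (hemiS (sgn s) (sgn_sq s) x) := by
  refine Subtype.ext ?_
  show hemiVec s x.1 = snocVec x.1 _
  ext i
  refine Fin.lastCases ?_ (fun j => ?_) i
  · rw [hemiVec_eq s x.1 _ (by simp), last_snocVec]
  · rw [hemiVec_lt s x.1 _ (by simp)]
    simp [snocVec]

theorem gmap_source {n : ℕ} (x : Dn n) : gmap (.bd n.lt_succ_self false) x = source x :=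
  hemiMap_eq_hemiS false x

theorem gmap_target {n : ℕ} (x : Dn n) : gmap (.bd n.lt_succ_self true) x = target x :=
  hemiMap_eq_hemiS true x

end Vale.Agent.P259.Disc
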