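import Vale.Agent.P259.Disc.Box

/-!
P259: a globular family of self-maps of the discs is globularly homotopic to the identity.
-/

open Set Metric unitInterval

noncomputable section

namespace Vale.Agent.P259.Disc

/-- The value at one stage, with what is needed for the next one. -/
def HomStage (κ : ∀ n, C(Dn n, Dn n)) : ∀ n, C(Dn n × I, Dn n) → Prop := fun n K =>
  (∀ x, K (x, 0) = κ n x) ∧ (∀ x, K (x, 1) = x) ∧
    ∀ (z : Sn n) r, source (K (incl z, r)) = target (K (incl z, r))

theorem exists_step (κ : ∀ n, C(Dn n, Dn n))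
    (hs : ∀ n y, κ (n + 1) (source y) = source (κ n y))
    (ht : ∀ n y, κ (n + 1) (target y) = target (κ n y)) (n : ℕ) (K : C(Dn n × I, Dn n))
    (hK : HomStage κ n K) :
    ∃ K' : C(Dn (n + 1) × I, Dn (n + 1)), HomStage κ (n + 1) K' ∧
      (∀ x r, K' (source x, r) = source (K (x, r))) ∧
      ∀ x r, K' (target x, r) = target (K (x, r)) := by
  obtain ⟨H, H0, H1, Hs, Ht⟩ := exists_box (κ (n + 1)) (ContinuousMap.id _) (source.comp K)
    (target.comp K) (fun y => by simp [hK.1, hs]) (fun y => by simp [hK.2.1])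
    (fun y => by simp [hK.1, ht]) (fun y => by simp [hK.2.1]) hK.2.2
  refine ⟨H, ⟨H0, H1, fun z r => ?_⟩, Hs, Ht⟩
  rcases mem_hemisphere z with ⟨x, rfl⟩ | ⟨x, rfl⟩
  · rw [show incl (sourceS x) = source x from rfl, Hs]
    exact glob_source _
  · rw [show incl (targetS x) = target x from rfl, Ht]
    exact glob_target _

theorem exists_discHom (κ : ∀ n, C(Dn n, Dn n))
    (hs : ∀ n y, κ (n + 1) (source y) = source (κ n y))
    (ht : ∀ n y, κ (n + 1) (target y) = target (κ n y)) :
    ∃ K : ∀ n, C(Dn n × I, Dn n), (∀ n x, K n (x, 0) = κ n x) ∧ (∀ n x, K n (x, 1) = x) ∧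
      (∀ n x r, K (n + 1) (source x, r) = source (K n (x, r))) ∧
      ∀ n x r, K (n + 1) (target x, r) = target (K n (x, r)) := by
  have h0 : ∃ K : C(Dn 0 × I, Dn 0), HomStage κ 0 K :=
    ⟨⟨fun p => p.1, continuous_fst⟩, fun x => Subsingleton.elim _ _, fun x => rfl,
      fun z => isEmptyElim z⟩
  choose step hstep using exists_step κ hs ht
  let K : ∀ n, {K : C(Dn n × I, Dn n) // HomStage κ n K} :=
    fun n => Nat.rec ⟨h0.choose, h0.choose_spec⟩
      (fun m Km => ⟨step m Km.1 Km.2, (hstep m Km.1 Km.2).1⟩) n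
  exact ⟨fun n => (K n).1, fun n => (K n).2.1, fun n => (K n).2.2.1,
    fun n => (hstep n (K n).1 (K n).2).2.1, fun n => (hstep n (K n).1 (K n).2).2.2⟩

end Vale.Agent.P259.Disc
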