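import Vale.Agent.P259.Disc.Hemi

/-!
P259: classes of fillers of a sphere, relative to the sphere, and their transport along a
homotopy of the sphere.
-/

open Set Metric unitInterval

noncomputable section

namespace Vale.Agent.P259.Disc

universe u v

variable {n : ℕ} {Y : Type u} [TopologicalSpace Y] {Y' : Type v} [TopologicalSpace Y']

/-- Maps of the disc with prescribed restriction to the sphere. -/
def Fill (n : ℕ) (f : C(Sn n, Y)) : Type u := {F : C(Dn n, Y) // ∀ x, F (incl x) = f x}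

/-- A disc of one dimension higher between two maps. -/
def Conn (F G : C(Dn n, Y)) : Prop :=
  ∃ W : C(Dn (n + 1), Y), (∀ x, W (source x) = F x) ∧ ∀ x, W (target x) = G x

/-- Homotopy relative to the sphere. -/
def HRel (F G : C(Dn n, Y)) : Prop :=
  ∃ H : C(Dn n × I, Y), (∀ x, H (x, 0) = F x) ∧ (∀ x, H (x, 1) = G x) ∧
    ∀ z t, H (incl z, t) = F (incl z)

/-- The collapse of the cylinder onto the next disc. -/
def collapse : C(Dn n × I, Dn (n + 1)) :=
  ⟨fun p => segment ((source p.1, target p.1), p.2), by fun_prop⟩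

theorem collapse_zero (x : Dn n) : collapse (x, 0) = source x :=
  Subtype.ext (by simp [collapse, segment])

theorem collapse_one (x : Dn n) : collapse (x, 1) = target x :=
  Subtype.ext (by simp [collapse, segment])

theorem collapse_incl (z : Sn n) (t : I) : collapse (incl z, t) = source (incl z) := by
  refine Subtype.ext ?_
  show (1 - (t : ℝ)) • (source (incl z)).1 + (t : ℝ) • (target (incl z)).1 = _
  rw [← source_eq_target, ← add_smul]
  simp

theorem hemi_last (x : Dn n) (e : ℝ) (he : e ^ 2 = 1) :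
    (incl (hemiS e he x)).1 (Fin.last n) =
      e * √(1 - ‖(x : EuclideanSpace ℝ (Fin n))‖ ^ 2) :=
  last_snocVec _ _

theorem collapse_last (x : Dn n) (t : I) :
    (collapse (x, t)).1 (Fin.last n) =
      (2 * (t : ℝ) - 1) * √(1 - ‖(x : EuclideanSpace ℝ (Fin n))‖ ^ 2) := by
  show ((1 - (t : ℝ)) • (source x).1 + (t : ℝ) • (target x).1 :
    EuclideanSpace ℝ (Fin (n + 1))) (Fin.last n) = _
  have h1 : (source x).1 (Fin.last n) = -1 * √(1 - ‖(x : EuclideanSpace ℝ (Fin n))‖ ^ 2) :=
    hemi_last x _ _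
  have h2 : (target x).1 (Fin.last n) = 1 * √(1 - ‖(x : EuclideanSpace ℝ (Fin n))‖ ^ 2) :=
    hemi_last x _ _
  simp [h1, h2]
  ring

theorem proj_collapse (x : Dn n) (t : I) : proj (collapse (x, t)) = x := by
  refine Subtype.ext ?_
  ext i
  have h1 : (source x).1 i.castSucc = x.1 i :=
    congrArg (fun z : Dn n => z.1 i) (proj_source x)
  have h2 : (target x).1 i.castSucc = x.1 i :=
    congrArg (fun z : Dn n => z.1 i) (proj_target x)
  show ((1 - (t : ℝ)) • (source x).1 + (t : ℝ) • (target x).1 :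
    EuclideanSpace ℝ (Fin (n + 1))) i.castSucc = x.1 i
  simp [h1, h2]
  ring

theorem collapse_surjective : Function.Surjective (collapse (n := n)) := by
  intro y
  set x := proj y with hx
  set s := √(1 - ‖(x : EuclideanSpace ℝ (Fin n))‖ ^ 2) with hs
  have hy := norm_sq_split y.1
  have hy1 : ‖y.1‖ ^ 2 ≤ 1 := by nlinarith [ball_norm_le y, norm_nonneg y.1]
  have hxi : initVec y.1 = x.1 := rfl
  rw [hxi] at hy
  have hlast : |y.1 (Fin.last n)| ≤ s := by
    refine Real.abs_le_sqrt ?_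
    linarith
  obtain ⟨hl, hu⟩ := abs_le.1 hlast
  obtain ⟨t, ht⟩ : ∃ t : I, (2 * (t : ℝ) - 1) * s = y.1 (Fin.last n) := by
    rcases eq_or_lt_of_le (show 0 ≤ s from Real.sqrt_nonneg _) with h0 | h0
    · refine ⟨0, ?_⟩
      have : y.1 (Fin.last n) = 0 := by linarith
      simp [this, ← h0]
    · refine ⟨⟨(y.1 (Fin.last n) / s + 1) / 2, ?_, ?_⟩, ?_⟩
      · have : -1 ≤ y.1 (Fin.last n) / s := by rw [le_div_iff₀ h0]; linarith
        linarith
      · have : y.1 (Fin.last n) / s ≤ 1 := by rw [div_le_iff₀ h0]; linarith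
        linarith
      · show (2 * ((y.1 (Fin.last n) / s + 1) / 2) - 1) * s = _
        field_simp
        ring
  refine ⟨(x, t), Subtype.ext ?_⟩
  rw [← snocVec_initVec (collapse (x, t)).1, ← snocVec_initVec y.1, collapse_last, ht]
  exact congrArg (fun z : Dn n => snocVec z.1 (y.1 (Fin.last n))) (proj_collapse x t)

theorem Conn.hRel {F G : C(Dn n, Y)} (h : Conn F G) : HRel F G := by
  obtain ⟨W, hs, ht⟩ := h
  refine ⟨W.comp collapse, fun x => ?_, fun x => ?_, fun z t => ?_⟩
  · show W (collapse (x, 0)) = _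
    rw [collapse_zero, hs]
  · show W (collapse (x, 1)) = _
    rw [collapse_one, ht]
  · show W (collapse (incl z, t)) = _
    rw [collapse_incl, hs]

theorem HRel.conn {F G : C(Dn n, Y)} (h : HRel F G) : Conn F G := by
  obtain ⟨H, h0, h1, hb⟩ := h
  have hq : Topology.IsQuotientMap (collapse (n := n)) :=
    Topology.IsQuotientMap.of_surjective_continuous collapse_surjective collapse.continuous
  have hf : Function.FactorsThrough H (collapse (n := n)) := by
    rintro ⟨x, t⟩ ⟨x', t'⟩ he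
    obtain rfl : x = x' := by
      rw [← proj_collapse x t, he, proj_collapse]
    by_cases hn : ‖(x : EuclideanSpace ℝ (Fin n))‖ = 1
    · obtain ⟨z, rfl⟩ : ∃ z, incl z = x := ⟨⟨x.1, mem_sphere_zero_iff_norm.2 hn⟩, rfl⟩
      rw [hb, hb]
    · have hpos : 0 < √(1 - ‖(x : EuclideanSpace ℝ (Fin n))‖ ^ 2) := by
        refine Real.sqrt_pos.2 ?_
        have h2 : ‖(x : EuclideanSpace ℝ (Fin n))‖ < 1 := lt_of_le_of_ne (ball_norm_le x) hn
        nlinarith [norm_nonneg (x : EuclideanSpace ℝ (Fin n))]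
      have hl := congrArg (fun y : Dn (n + 1) => y.1 (Fin.last n)) he
      simp only [collapse_last] at hl
      have := mul_right_cancel₀ hpos.ne' hl
      exact congrArg H (Prod.ext rfl (Subtype.ext (by linarith)))
  refine ⟨hq.lift H hf, fun x => ?_, fun x => ?_⟩
  · have := congrArg (fun F : C(Dn n × I, Y) => F (x, 0)) (hq.lift_comp H hf)
    simp only [ContinuousMap.comp_apply, collapse_zero] at this
    rw [this, h0]
  · have := congrArg (fun F : C(Dn n × I, Y) => F (x, 1)) (hq.lift_comp H hf)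
    simp only [ContinuousMap.comp_apply, collapse_one] at this
    rw [this, h1]

theorem HRel.refl (F : C(Dn n, Y)) : HRel F F :=
  ⟨⟨fun p => F p.1, by fun_prop⟩, fun _ => rfl, fun _ => rfl, fun _ _ => rfl⟩

theorem conn_refl (F : C(Dn n, Y)) : Conn F F := (HRel.refl F).conn

/-! ### Transport along a homotopy of the sphere -/

/-- A homotopy from `F` to `G` whose restriction to the sphere is `h`. -/
def Transports (h : C(Sn n × I, Y)) (F G : C(Dn n, Y)) : Prop :=
  ∃ H : C(Dn n × I, Y), (∀ x, H (x, 0) = F x) ∧ (∀ x, H (x, 1) = G x) ∧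
    ∀ z t, H (incl z, t) = h (z, t)

theorem Transports.exists (h : C(Sn n × I, Y)) (F : C(Dn n, Y))
    (hF : ∀ z, h (z, 0) = F (incl z)) : ∃ G, Transports h F G := by
  obtain ⟨H, h0, hb⟩ := exists_extension F h hF
  exact ⟨⟨fun x => H (x, 1), by fun_prop⟩, H, h0, fun _ => rfl, hb⟩

/-- Reversal. -/
theorem Transports.symm {h : C(Sn n × I, Y)} {F G : C(Dn n, Y)} (hFG : Transports h F G) :
    Transports (h.comp ⟨fun p => (p.1, σ p.2), by fun_prop⟩) G F := by
  obtain ⟨H, h0, h1, hb⟩ := hFG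
  exact ⟨H.comp ⟨fun p => (p.1, σ p.2), by fun_prop⟩, fun x => by simp [h1],
    fun x => by simp [h0], fun z t => hb z (σ t)⟩

theorem Transports.map (f : C(Y, Y')) {h : C(Sn n × I, Y)} {F G : C(Dn n, Y)}
    (hFG : Transports h F G) : Transports (f.comp h) (f.comp F) (f.comp G) := by
  obtain ⟨H, h0, h1, hb⟩ := hFG
  exact ⟨f.comp H, fun x => congrArg f (h0 x), fun x => congrArg f (h1 x),
    fun z t => congrArg f (hb z t)⟩

/-- Transports of homotopic maps are homotopic relative to the sphere. -/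
theorem Transports.unique {h : C(Sn n × I, Y)} {F F' G G' : C(Dn n, Y)} (hFF : HRel F F')
    (hFG : Transports h F G) (hFG' : Transports h F' G') : HRel G G' := by
  classical
  obtain ⟨L, L0, L1, Lb⟩ := hFF
  obtain ⟨H, H0, H1, Hb⟩ := hFG
  obtain ⟨H', H0', H1', Hb'⟩ := hFG'
  let cyl : C(Dn n × I, Ball (EuclideanSpace ℝ (Fin n) × ℝ)) :=
    ⟨fun p => ⟨(p.1.1, 2 * (p.2 : ℝ) - 1), mem_closedBall_zero_iff.2
      (max_le (ball_norm_le p.1) (by
        rw [Real.norm_eq_abs, abs_le]; constructor <;> linarith [p.2.2.1, p.2.2.2]))⟩,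
      Continuous.subtype_mk (by fun_prop) _⟩
  let unc : C(Ball (EuclideanSpace ℝ (Fin n) × ℝ), Dn n × I) :=
    ⟨fun q => (⟨q.1.1, mem_closedBall_zero_iff.2 ((norm_fst_le q.1).trans (ball_norm_le q))⟩,
      projIcc 0 1 zero_le_one ((q.1.2 + 1) / 2)), by fun_prop⟩
  have hsec : ∀ q : Ball (EuclideanSpace ℝ (Fin n) × ℝ), ((unc q).2 : ℝ) = (q.1.2 + 1) / 2 := fun q => by
    have := abs_le.1 ((Real.norm_eq_abs _).symm.le.trans ((norm_snd_le q.1).trans (ball_norm_le q)))
    show (projIcc 0 1 zero_le_one ((q.1.2 + 1) / 2) : ℝ) = _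
    rw [projIcc_of_mem _ ⟨by linarith, by linarith⟩]
  have hunc : ∀ p : Dn n × I, unc (cyl p) = p := fun p => by
    refine Prod.ext (Subtype.ext rfl) (Subtype.ext ?_)
    rw [hsec]
    show ((2 * (p.2 : ℝ) - 1) + 1) / 2 = p.2
    ring
  -- the side of the new cylinder
  let px : (Sph (EuclideanSpace ℝ (Fin n) × ℝ) × I) → Dn n := fun q => (unc (incl q.1)).1
  let ps : (Sph (EuclideanSpace ℝ (Fin n) × ℝ) × I) → ℝ := fun q => q.1.1.2
  let gs : (Sph (EuclideanSpace ℝ (Fin n) × ℝ) × I) → Y := fun q =>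
    if hq : ‖(px q).1‖ = 1 then h (⟨(px q).1, mem_sphere_zero_iff_norm.2 hq⟩, q.2)
    else if ps q ≤ 0 then H (px q, q.2) else H' (px q, q.2)
  have hpxc : Continuous px := by fun_prop
  set A : Set (Sph (EuclideanSpace ℝ (Fin n) × ℝ) × I) := {q | ‖(px q).1‖ = 1}
  set B : Set (Sph (EuclideanSpace ℝ (Fin n) × ℝ) × I) := {q | ps q = -1}
  set B' : Set (Sph (EuclideanSpace ℝ (Fin n) × ℝ) × I) := {q | ps q = 1}
  have hcov : ∀ q : (Sph (EuclideanSpace ℝ (Fin n) × ℝ) × I), q ∈ A ∪ (B ∪ B') := by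
    intro q
    have hq : max ‖q.1.1.1‖ ‖q.1.1.2‖ = 1 := mem_sphere_zero_iff_norm.1 q.1.2
    rcases max_choice ‖q.1.1.1‖ ‖q.1.1.2‖ with h' | h'
    · exact Or.inl (show ‖q.1.1.1‖ = 1 by rw [← h']; exact hq)
    · rw [h', Real.norm_eq_abs] at hq
      rcases (abs_eq zero_le_one).1 hq with h' | h'
      · exact Or.inr (Or.inr h')
      · exact Or.inr (Or.inl h')
  have hgA : ContinuousOn gs A := by
    rw [continuousOn_iff_continuous_domRestrict]
    rw [show A.domRestrict gs = fun q : A => h (⟨(px q.1).1, mem_sphere_zero_iff_norm.2 q.2⟩, q.1.2)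
      from funext fun q => dif_pos q.2]
    exact h.continuous.comp (Continuous.prodMk (Continuous.subtype_mk (by fun_prop) _) (by fun_prop))
  have hgB : ContinuousOn gs B := by
    refine ContinuousOn.congr (f := fun q => H (px q, q.2)) (by fun_prop) fun q hq => ?_
    by_cases hn : ‖(px q).1‖ = 1
    · rw [show gs q = h (⟨(px q).1, mem_sphere_zero_iff_norm.2 hn⟩, q.2) from dif_pos hn,
        ← Hb]
      rfl
    · rw [show gs q = _ from dif_neg hn, if_pos (show ps q ≤ 0 by rw [show ps q = -1 from hq]; norm_num)]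
  have hgB' : ContinuousOn gs B' := by
    refine ContinuousOn.congr (f := fun q => H' (px q, q.2)) (by fun_prop) fun q hq => ?_
    by_cases hn : ‖(px q).1‖ = 1
    · rw [show gs q = h (⟨(px q).1, mem_sphere_zero_iff_norm.2 hn⟩, q.2) from dif_pos hn,
        ← Hb']
      rfl
    · rw [show gs q = _ from dif_neg hn,
        if_neg (show ¬ps q ≤ 0 by rw [show ps q = 1 from hq]; norm_num)]
  have hB : IsClosed B := isClosed_eq (by fun_prop) continuous_const
  have hB' : IsClosed B' := isClosed_eq (by fun_prop) continuous_const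
  have hA : IsClosed A := isClosed_eq (by fun_prop) continuous_const
  have hgs : Continuous gs := by
    rw [← continuousOn_univ, ← show A ∪ (B ∪ B') = univ from eq_univ_of_forall hcov]
    exact hgA.union_of_isClosed (hgB.union_of_isClosed hgB' hB hB') hA (hB.union hB')
  obtain ⟨W, W0, Wb⟩ := exists_extension (L.comp unc) ⟨gs, hgs⟩ fun q => by
    show gs (q, 0) = L (unc (incl q))
    have key : unc (incl q) = (px (q, 0), (unc (incl q)).2) := rfl
    rcases hcov (q, 0) with hn | hs | hs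
    · rw [show gs (q, 0) = _ from dif_pos hn, key]
      exact ((Hb _ _).symm.trans ((H0 _).trans (Lb _ _).symm))
    · have h2 : (unc (incl q)).2 = 0 := Subtype.ext (by
        rw [hsec, show (incl q).1.2 = -1 from hs]; simp)
      rw [key, h2, L0, ← H0]
      by_cases hn : ‖(px (q, 0)).1‖ = 1
      · rw [show gs (q, 0) = _ from dif_pos hn, ← Hb]
        rfl
      · rw [show gs (q, 0) = _ from dif_neg hn,
          if_pos (show ps (q, 0) ≤ 0 by rw [show ps (q, 0) = -1 from hs]; norm_num)]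
    · have h2 : (unc (incl q)).2 = 1 := Subtype.ext (by
        rw [hsec, show (incl q).1.2 = 1 from hs]; norm_num)
      rw [key, h2, L1, ← H0']
      by_cases hn : ‖(px (q, 0)).1‖ = 1
      · rw [show gs (q, 0) = _ from dif_pos hn, ← Hb']
        rfl
      · rw [show gs (q, 0) = _ from dif_neg hn,
          if_neg (show ¬ps (q, 0) ≤ 0 by rw [show ps (q, 0) = 1 from hs]; norm_num)]
  have hb : ∀ (p : Dn n × I) (hp : ‖(cyl p).1‖ = 1),
      W (cyl p, 1) = gs (⟨(cyl p).1, mem_sphere_zero_iff_norm.2 hp⟩, 1) := fun p hp =>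
    Wb ⟨(cyl p).1, mem_sphere_zero_iff_norm.2 hp⟩ 1
  refine ⟨⟨fun p => W (cyl p, 1), by fun_prop⟩, fun x => ?_, fun x => ?_, fun z t => ?_⟩
  · have hp : ‖(cyl (x, 0)).1‖ = 1 := by
      show max ‖x.1‖ ‖(2 * ((0 : I) : ℝ) - 1)‖ = 1
      simp [ball_norm_le x]
    show W (cyl (x, 0), 1) = G x
    rw [hb _ hp, ← H1]
    by_cases hn : ‖x.1‖ = 1
    · refine (dif_pos hn).trans ?_
      rw [← Hb]
      rfl
    · refine (dif_neg hn).trans ((if_pos ?_).trans ?_)
      · show 2 * ((0 : I) : ℝ) - 1 ≤ 0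
        simp
      · exact congrArg H (Prod.ext (Subtype.ext rfl : px _ = x) rfl)
  · have hp : ‖(cyl (x, 1)).1‖ = 1 := by
      show max ‖x.1‖ ‖(2 * ((1 : I) : ℝ) - 1)‖ = 1
      norm_num [ball_norm_le x]
    show W (cyl (x, 1), 1) = G' x
    rw [hb _ hp, ← H1']
    by_cases hn : ‖x.1‖ = 1
    · refine (dif_pos hn).trans ?_
      rw [← Hb']
      rfl
    · refine (dif_neg hn).trans ((if_neg ?_).trans ?_)
      · show ¬2 * ((1 : I) : ℝ) - 1 ≤ 0
        norm_num
      · exact congrArg H' (Prod.ext (Subtype.ext rfl : px _ = x) rfl)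
  · have hz : ‖(z : EuclideanSpace ℝ (Fin n))‖ = 1 := mem_sphere_zero_iff_norm.1 z.2
    have hp : ‖(cyl (incl z, t)).1‖ = 1 := by
      show max ‖(z : EuclideanSpace ℝ (Fin n))‖ ‖(2 * (t : ℝ) - 1)‖ = 1
      rw [hz, max_eq_left]
      rw [Real.norm_eq_abs, abs_le]
      constructor <;> linarith [t.2.1, t.2.2]
    show W (cyl (incl z, t), 1) = G (incl z)
    rw [hb _ hp, ← H1, Hb]
    exact dif_pos hz

theorem HRel.symm {F G : C(Dn n, Y)} (h : HRel F G) : HRel G F := by
  obtain ⟨H, h0, h1, hb⟩ := h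
  refine ⟨H.comp ⟨fun p => (p.1, σ p.2), by fun_prop⟩, fun x => by simp [h1],
    fun x => by simp [h0], fun z t => ?_⟩
  show H (incl z, σ t) = G (incl z)
  rw [hb, ← h1, hb]

theorem HRel.trans {F G K : C(Dn n, Y)} (h : HRel F G) (h' : HRel G K) : HRel F K := by
  obtain ⟨H, h0, h1, hb⟩ := h.symm
  exact Transports.unique (h := ⟨fun p => G (incl p.1), by fun_prop⟩) (HRel.refl G)
    ⟨H, h0, h1, hb⟩ h'

theorem conn_iff_hRel {F G : C(Dn n, Y)} : Conn F G ↔ HRel F G := ⟨Conn.hRel, HRel.conn⟩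

/-! ### The classes -/

variable {f g : C(Sn n, Y)}

theorem Fill.hRel_equivalence : Equivalence fun F G : Fill n f => HRel F.1 G.1 :=
  ⟨fun F => HRel.refl F.1, fun h => h.symm, fun h h' => h.trans h'⟩

/-- Fillers of a sphere up to homotopy relative to the sphere. -/
def Rel (n : ℕ) (f : C(Sn n, Y)) : Type u := Quot fun F G : Fill n f => Conn F.1 G.1

/-- The class of a filler. -/
def Rel.mk (F : Fill n f) : Rel n f := Quot.mk _ F

theorem Rel.mk_eq_iff {F G : Fill n f} : Rel.mk F = Rel.mk G ↔ HRel F.1 G.1 := by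
  refine ⟨fun h => ?_, fun h => Quot.sound h.conn⟩
  have e := Quot.eqvGen_exact h
  clear h
  induction e with
  | rel x y hxy => exact Conn.hRel hxy
  | refl x => exact HRel.refl _
  | symm x y _ ih => exact HRel.symm ih
  | trans x y z _ _ ih ih' => exact HRel.trans ih ih'

theorem Rel.mk_surjective : Function.Surjective (Rel.mk (f := f)) := Quot.exists_rep

/-- Post-composition on fillers. -/
def Fill.map (φ : C(Y, Y')) (F : Fill n f) : Fill n (φ.comp f) :=
  ⟨φ.comp F.1, fun x => congrArg φ (F.2 x)⟩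

theorem Conn.map (φ : C(Y, Y')) {F G : C(Dn n, Y)} (h : Conn F G) :
    Conn (φ.comp F) (φ.comp G) := by
  obtain ⟨W, hs, ht⟩ := h
  exact ⟨φ.comp W, fun x => congrArg φ (hs x), fun x => congrArg φ (ht x)⟩

/-- Post-composition on classes. -/
def Rel.map (φ : C(Y, Y')) : Rel n f → Rel n (φ.comp f) :=
  Quot.map (Fill.map φ) fun _ _ h => h.map φ

/-- Transport of fillers along a homotopy of the sphere, chosen. -/
def Fill.transport (h : C(Sn n × I, Y)) (h0 : ∀ z, h (z, 0) = f z) (h1 : ∀ z, h (z, 1) = g z)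
    (F : Fill n f) : Fill n g :=
  ⟨(Transports.exists h F.1 fun z => (h0 z).trans (F.2 z).symm).choose, fun z => by
    obtain ⟨H, -, H1, Hb⟩ := (Transports.exists h F.1 fun z => (h0 z).trans (F.2 z).symm).choose_spec
    rw [← H1, Hb, h1]⟩

theorem Fill.transport_spec (h : C(Sn n × I, Y)) (h0 : ∀ z, h (z, 0) = f z)
    (h1 : ∀ z, h (z, 1) = g z) (F : Fill n f) :
    Transports h F.1 (F.transport h h0 h1).1 :=
  (Transports.exists h F.1 fun z => (h0 z).trans (F.2 z).symm).choose_spec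

/-- Transport of classes along a homotopy of the sphere. -/
def Rel.transport (h : C(Sn n × I, Y)) (h0 : ∀ z, h (z, 0) = f z) (h1 : ∀ z, h (z, 1) = g z) :
    Rel n f → Rel n g :=
  Quot.map (Fill.transport h h0 h1) fun F F' hFF =>
    (Transports.unique hFF.hRel (F.transport_spec h h0 h1) (F'.transport_spec h h0 h1)).conn

theorem Rel.transport_eq {h : C(Sn n × I, Y)} (h0 : ∀ z, h (z, 0) = f z)
    (h1 : ∀ z, h (z, 1) = g z) {F : Fill n f} {G : Fill n g} (hFG : Transports h F.1 G.1) :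
    Rel.transport h h0 h1 (Rel.mk F) = Rel.mk G :=
  Rel.mk_eq_iff.2 (Transports.unique (HRel.refl _) (F.transport_spec h h0 h1) hFG)

theorem Rel.transport_bijective (h : C(Sn n × I, Y)) (h0 : ∀ z, h (z, 0) = f z)
    (h1 : ∀ z, h (z, 1) = g z) : Function.Bijective (Rel.transport h h0 h1) := by
  refine ⟨fun a b hab => ?_, fun b => ?_⟩
  · obtain ⟨F, rfl⟩ := Rel.mk_surjective a
    obtain ⟨F', rfl⟩ := Rel.mk_surjective b
    exact Rel.mk_eq_iff.2 (Transports.unique (Rel.mk_eq_iff.1 hab)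
      (F.transport_spec h h0 h1).symm (F'.transport_spec h h0 h1).symm)
  · obtain ⟨G, rfl⟩ := Rel.mk_surjective b
    let h' : C(Sn n × I, Y) := h.comp ⟨fun p => (p.1, σ p.2), by fun_prop⟩
    have e0 : ∀ z, h' (z, 0) = g z := fun z => by simp [h', h1]
    have e1 : ∀ z, h' (z, 1) = f z := fun z => by simp [h', h0]
    refine ⟨Rel.mk (G.transport h' e0 e1), Rel.transport_eq h0 h1 ?_⟩
    have hh : h'.comp ⟨fun p : Sn n × I => (p.1, σ p.2), by fun_prop⟩ = h := by ext p; simp [h']
    have := (G.transport_spec h' e0 e1).symm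
    rwa [hh] at this

theorem Rel.map_transport (φ : C(Y, Y')) (h : C(Sn n × I, Y)) (h0 : ∀ z, h (z, 0) = f z)
    (h1 : ∀ z, h (z, 1) = g z) (a : Rel n f) :
    Rel.map φ (Rel.transport h h0 h1 a) = Rel.transport (f := φ.comp f) (g := φ.comp g) (φ.comp h)
      (fun z => congrArg φ (h0 z)) (fun z => congrArg φ (h1 z)) (Rel.map φ a) := by
  obtain ⟨F, rfl⟩ := Rel.mk_surjective a
  exact (Rel.transport_eq _ _ (G := (F.transport h h0 h1).map φ)
    ((F.transport_spec h h0 h1).map φ)).symm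

/-- A homotopy of the sphere carries bijectivity of a post-composition from one boundary to
the other. -/
theorem Rel.map_bijective_of_homotopy (φ : C(Y, Y')) (h : C(Sn n × I, Y))
    (h0 : ∀ z, h (z, 0) = f z) (h1 : ∀ z, h (z, 1) = g z)
    (hb : Function.Bijective (Rel.map (f := f) φ)) : Function.Bijective (Rel.map (f := g) φ) := by
  have e : Rel.map (f := g) φ ∘ Rel.transport h h0 h1 =
      Rel.transport (f := φ.comp f) (g := φ.comp g) (φ.comp h) (fun z => congrArg φ (h0 z))
        (fun z => congrArg φ (h1 z)) ∘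
        Rel.map (f := f) φ := funext (Rel.map_transport φ h h0 h1)
  have := (Rel.transport_bijective (φ.comp h) (g := φ.comp g) (f := φ.comp f)
    (fun z => congrArg φ (h0 z)) fun z => congrArg φ (h1 z)).comp hb
  rw [← e] at this
  exact (Function.Bijective.of_comp_iff _ (Rel.transport_bijective h h0 h1)).1 this

end Vale.Agent.P259.Disc
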