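import Mathlib.Analysis.Normed.Module.Basic
import Mathlib.Analysis.InnerProductSpace.PiL2
import Mathlib.Topology.Homotopy.Contractible
import Mathlib.Topology.UnitInterval
import Mathlib.Analysis.Convex.Contractible

/-!
P259: a ball times the interval retracts onto its bottom and side. This gives the homotopy
extension property of a ball and its sphere, and fillers in contractible spaces.
-/

open Set Metric unitInterval

noncomputable section

namespace Vale.Agent.P259.Disc

variable {E : Type*} [NormedAddCommGroup E] [NormedSpace ℝ E]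

set_option linter.unusedSectionVars false

/-- The closed unit ball. -/
abbrev Ball (E : Type*) [NormedAddCommGroup E] : Type _ := closedBall (0 : E) 1

/-- The unit sphere. -/
abbrev Sph (E : Type*) [NormedAddCommGroup E] : Type _ := sphere (0 : E) 1

/-- The inclusion of the sphere in the ball. -/
def incl : C(Sph E, Ball E) :=
  ⟨fun x => ⟨x.1, sphere_subset_closedBall x.2⟩,
    Continuous.subtype_mk continuous_subtype_val _⟩

@[simp] theorem incl_val (x : Sph E) : (incl x : E) = x := rfl

theorem ball_norm_le (x : Ball E) : ‖(x : E)‖ ≤ 1 := mem_closedBall_zero_iff.1 x.2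

/-- The common denominator of the radial projection from height two. -/
def scale (p : Ball E × I) : ℝ := max ((2 - (p.2 : ℝ)) / 2) ‖(p.1 : E)‖

theorem scale_pos (p : Ball E × I) : 0 < scale p :=
  lt_max_of_lt_left (by linarith [p.2.2.2])

theorem scale_le_one (p : Ball E × I) : scale p ≤ 1 :=
  max_le (by linarith [p.2.2.1]) (ball_norm_le p.1)

/-- Radial projection from height two onto the bottom and the side. -/
def retr : C(Ball E × I, Ball E × I) where
  toFun p :=
    (⟨(scale p)⁻¹ • (p.1 : E), by
      rw [mem_closedBall_zero_iff, norm_smul, norm_inv, Real.norm_of_nonneg (scale_pos p).le,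
        inv_mul_le_iff₀ (scale_pos p), mul_one]
      exact le_max_right _ _⟩,
     ⟨2 - (2 - (p.2 : ℝ)) / scale p, by
      have h0 := scale_pos p
      have h1 := scale_le_one p
      have h2 : (2 - (p.2 : ℝ)) / 2 ≤ scale p := le_max_left _ _
      have h3 : (2 - (p.2 : ℝ)) / scale p ≤ 2 := by rw [div_le_iff₀ h0]; linarith
      have h4 : 1 ≤ (2 - (p.2 : ℝ)) / scale p := by
        rw [le_div_iff₀ h0]; linarith [p.2.2.2]
      exact ⟨by linarith, by linarith⟩⟩)
  continuous_toFun := by
    have hs : Continuous (scale : Ball E × I → ℝ) := by unfold scale; fun_prop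
    refine Continuous.prodMk (Continuous.subtype_mk ?_ _) (Continuous.subtype_mk ?_ _)
    · exact (hs.inv₀ fun p => (scale_pos p).ne').smul (by fun_prop)
    · exact continuous_const.sub (Continuous.div (by fun_prop) hs fun p => (scale_pos p).ne')

/-- The bottom and the side. -/
def bottomSide (E : Type*) [NormedAddCommGroup E] : Set (Ball E × I) :=
  {p | (p.2 : ℝ) = 0} ∪ {p | ‖(p.1 : E)‖ = 1}

theorem retr_mem (p : Ball E × I) : retr p ∈ bottomSide E := by
  have h0 := scale_pos p
  rcases max_cases ((2 - (p.2 : ℝ)) / 2) ‖(p.1 : E)‖ with ⟨h, -⟩ | ⟨h, -⟩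
  · left
    show 2 - (2 - (p.2 : ℝ)) / scale p = 0
    have h' : scale p = (2 - (p.2 : ℝ)) / 2 := h
    rw [h']
    have : (2 - (p.2 : ℝ)) ≠ 0 := by linarith [p.2.2.2]
    field_simp
    ring
  · right
    show ‖(scale p)⁻¹ • (p.1 : E)‖ = 1
    have h' : scale p = ‖(p.1 : E)‖ := h
    rw [norm_smul, norm_inv, Real.norm_of_nonneg h0.le, ← h', inv_mul_cancel₀ h0.ne']

theorem retr_fix {p : Ball E × I} (h : p ∈ bottomSide E) : retr p = p := by
  have hs : scale p = 1 := by
    rcases h with h | h
    · have h' : (p.2 : ℝ) = 0 := h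
      simp [scale, h', ball_norm_le p.1]
    · have h' : ‖(p.1 : E)‖ = 1 := h
      unfold scale
      rw [h']
      exact max_eq_right (by linarith [p.2.2.1])
  refine Prod.ext (Subtype.ext ?_) (Subtype.ext ?_)
  · show (scale p)⁻¹ • (p.1 : E) = p.1
    simp [hs]
  · show 2 - (2 - (p.2 : ℝ)) / scale p = p.2
    simp [hs]

/-- Homotopy extension for the ball and its sphere. -/
theorem exists_extension {Y : Type*} [TopologicalSpace Y] (f : C(Ball E, Y))
    (h : C(Sph E × I, Y)) (hf : ∀ x, h (x, 0) = f (incl x)) :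
    ∃ H : C(Ball E × I, Y), (∀ x, H (x, 0) = f x) ∧ ∀ x t, H (incl x, t) = h (x, t) := by
  classical
  set S : Set (Ball E × I) := {p | ‖(p.1 : E)‖ = 1} with hS
  set B : Set (Ball E × I) := {p | (p.2 : ℝ) = 0} with hB
  let G : Ball E × I → Y := fun p =>
    if hp : ‖(p.1 : E)‖ = 1 then h (⟨p.1, mem_sphere_zero_iff_norm.2 hp⟩, p.2) else f p.1
  have hSc : IsClosed S := isClosed_eq (by fun_prop) continuous_const
  have hBc : IsClosed B := isClosed_eq (by fun_prop) continuous_const
  have hG1 : ContinuousOn G S := by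
    rw [continuousOn_iff_continuous_domRestrict]
    have : S.domRestrict G = fun p : S => h (⟨p.1.1, mem_sphere_zero_iff_norm.2 p.2⟩, p.1.2) :=
      funext fun p => dif_pos p.2
    rw [this]
    exact h.continuous.comp (Continuous.prodMk (Continuous.subtype_mk (by fun_prop) _) (by fun_prop))
  have hG2 : ContinuousOn G B := by
    refine ContinuousOn.congr (f := fun p => f p.1) (by fun_prop) fun p hp => ?_
    by_cases hn : ‖(p.1 : E)‖ = 1
    · show G p = _
      rw [show G p = h (⟨p.1, mem_sphere_zero_iff_norm.2 hn⟩, p.2) from dif_pos hn,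
        show p.2 = (0 : I) from Subtype.ext hp, hf]
      rfl
    · exact dif_neg hn
  have hG : ContinuousOn G (B ∪ S) := hG2.union_of_isClosed hG1 hBc hSc
  refine ⟨⟨fun p => G (retr p), hG.comp_continuous retr.continuous fun p => retr_mem p⟩,
    fun x => ?_, fun x t => ?_⟩
  · show G (retr (x, 0)) = f x
    rw [retr_fix (Or.inl rfl)]
    by_cases hn : ‖(x : E)‖ = 1
    · rw [show G (x, 0) = h (⟨x, mem_sphere_zero_iff_norm.2 hn⟩, 0) from dif_pos hn, hf]
      rfl
    · exact dif_neg hn
  · have hn : ‖((incl x : Ball E) : E)‖ = 1 := by simp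
    show G (retr (incl x, t)) = h (x, t)
    rw [retr_fix (Or.inr hn)]
    exact dif_pos hn

/-- A map from the sphere to a contractible space extends to the ball. -/
theorem exists_filler {Y : Type*} [TopologicalSpace Y] [ContractibleSpace Y] (f : C(Sph E, Y)) :
    ∃ F : C(Ball E, Y), ∀ x, F (incl x) = f x := by
  obtain ⟨p, ⟨K⟩⟩ := id_nullhomotopic Y
  let h : C(Sph E × I, Y) :=
    ⟨fun q => K (σ q.2, f q.1), by fun_prop⟩
  obtain ⟨H, -, h1⟩ := exists_extension (ContinuousMap.const _ p) h fun x => by
    show K (σ 0, f x) = p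
    simp
  refine ⟨⟨fun x => H (x, 1), by fun_prop⟩, fun x => ?_⟩
  show H (incl x, 1) = f x
  rw [h1]
  show K (σ 1, f x) = f x
  simp

end Vale.Agent.P259.Disc
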