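import Vale.Agent.P259.Disc.Rel

/-!
P259: the suspension of a disc along a new first coordinate. It commutes with both hemispheres, and
the time zero end is the source.
-/

open Set Metric unitInterval

noncomputable section

namespace Vale.Agent.P259.Disc

variable {n : ℕ} {Y : Type*} [TopologicalSpace Y]

/-- Prepend a first coordinate. -/
def consVec (a : ℝ) (v : EuclideanSpace ℝ (Fin n)) : EuclideanSpace ℝ (Fin (n + 1)) :=
  WithLp.toLp 2 (Fin.cons a (WithLp.ofLp v))

/-- Forget the first coordinate. -/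
def tailVec (v : EuclideanSpace ℝ (Fin (n + 1))) : EuclideanSpace ℝ (Fin n) :=
  WithLp.toLp 2 fun i => v i.succ

theorem continuous_consVec {X : Type*} [TopologicalSpace X] {a : X → ℝ}
    {f : X → EuclideanSpace ℝ (Fin n)} (ha : Continuous a) (hf : Continuous f) :
    Continuous fun x => consVec (a x) (f x) := by
  unfold consVec
  refine (PiLp.continuous_toLp 2 _).comp (continuous_pi fun i => ?_)
  refine Fin.cases ?_ (fun j => ?_) i
  · simpa using ha
  · simpa [Function.comp_def] using (PiLp.continuous_apply 2 (fun _ : Fin n => ℝ) j).comp hf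

@[simp] theorem consVec_zero (a : ℝ) (v : EuclideanSpace ℝ (Fin n)) : consVec a v 0 = a := rfl

@[simp] theorem tailVec_consVec (a : ℝ) (v : EuclideanSpace ℝ (Fin n)) :
    tailVec (consVec a v) = v := by
  ext i; simp [tailVec, consVec]

theorem consVec_tailVec (v : EuclideanSpace ℝ (Fin (n + 1))) : consVec (v 0) (tailVec v) = v := by
  ext i
  refine Fin.cases ?_ (fun j => ?_) i <;> simp [consVec, tailVec]

theorem norm_sq_consVec (a : ℝ) (v : EuclideanSpace ℝ (Fin n)) :
    ‖consVec a v‖ ^ 2 = a ^ 2 + ‖v‖ ^ 2 := by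
  simp [EuclideanSpace.norm_sq_eq, Fin.sum_univ_succ, consVec, sq_abs]

/-- The height of the suspension at a time. -/
def width (t : I) : ℝ := √(1 - (2 * (t : ℝ) - 1) ^ 2)

theorem width_sq (t : I) : width t ^ 2 = 1 - (2 * (t : ℝ) - 1) ^ 2 := by
  rw [width, Real.sq_sqrt]
  nlinarith [t.2.1, t.2.2]

theorem width_nonneg (t : I) : 0 ≤ width t := Real.sqrt_nonneg _

theorem continuous_width : Continuous width := by unfold width; fun_prop

theorem width_eq_zero {t : I} : width t = 0 ↔ t = 0 ∨ t = 1 := by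
  constructor
  · intro h
    have h2 := width_sq t
    rw [h] at h2
    have h3 : (t : ℝ) * (1 - t) = 0 := by linarith
    rcases mul_eq_zero.1 h3 with h4 | h4
    · exact Or.inl (Subtype.ext h4)
    · exact Or.inr (Subtype.ext (by simp only [Set.Icc.coe_one]; linarith))
  · rintro (rfl | rfl) <;> simp [width] <;> norm_num

theorem susp_mem (p : Dn n) (t : I) :
    ‖consVec (2 * (t : ℝ) - 1) (width t • (p : EuclideanSpace ℝ (Fin n)))‖ ≤ 1 := by
  have h := norm_sq_consVec (2 * (t : ℝ) - 1) (width t • (p : EuclideanSpace ℝ (Fin n)))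
  rw [norm_smul, Real.norm_of_nonneg (width_nonneg t), mul_pow, width_sq] at h
  have hp : ‖(p : EuclideanSpace ℝ (Fin n))‖ ^ 2 ≤ 1 :=
    pow_le_one₀ (norm_nonneg _) (ball_norm_le p)
  nlinarith [width_sq t, sq_nonneg (width t),
    norm_nonneg (consVec (2 * (t : ℝ) - 1) (width t • (p : EuclideanSpace ℝ (Fin n))))]

/-- The suspension. -/
def susp : C(Dn n × I, Dn (n + 1)) :=
  ⟨fun q => ⟨consVec (2 * (q.2 : ℝ) - 1) (width q.2 • (q.1 : EuclideanSpace ℝ (Fin n))),
      mem_closedBall_zero_iff.2 (susp_mem q.1 q.2)⟩,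
    Continuous.subtype_mk (continuous_consVec (by fun_prop)
      ((continuous_width.comp continuous_snd).smul (by fun_prop))) _⟩

theorem susp_val (p : Dn n) (t : I) :
    (susp (p, t)).1 = consVec (2 * (t : ℝ) - 1) (width t • (p : EuclideanSpace ℝ (Fin n))) := rfl

theorem susp_eq_of_width (p p' : Dn n) {t : I} (h : width t = 0) :
    susp (p, t) = susp (p', t) :=
  Subtype.ext (by rw [susp_val, susp_val, h, zero_smul, zero_smul])

theorem susp_zero (p p' : Dn n) : susp (p, (0 : I)) = susp (p', 0) :=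
  susp_eq_of_width p p' (width_eq_zero.2 (Or.inl rfl))

theorem susp_one (p p' : Dn n) : susp (p, (1 : I)) = susp (p', 1) :=
  susp_eq_of_width p p' (width_eq_zero.2 (Or.inr rfl))

theorem susp_surjective : Function.Surjective (susp (n := n)) := by
  intro y
  have hy : ‖y.1‖ ^ 2 ≤ 1 := pow_le_one₀ (norm_nonneg _) (ball_norm_le y)
  have hs : ‖y.1‖ ^ 2 = y.1 0 ^ 2 + ‖tailVec y.1‖ ^ 2 := by
    conv_lhs => rw [← consVec_tailVec y.1]
    exact norm_sq_consVec _ _
  have ha : y.1 0 ^ 2 ≤ 1 := by linarith [sq_nonneg ‖tailVec y.1‖]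
  have ha' := abs_le.1 ((sq_le_one_iff_abs_le_one _).1 ha)
  let t : I := ⟨(y.1 0 + 1) / 2, by linarith, by linarith⟩
  have ht : 2 * (t : ℝ) - 1 = y.1 0 := by simp [t]; ring
  have hw : ‖tailVec y.1‖ ^ 2 ≤ width t ^ 2 := by rw [width_sq, ht]; linarith
  have hw' : ‖tailVec y.1‖ ≤ width t :=
    le_of_pow_le_pow_left₀ two_ne_zero (width_nonneg t) hw
  by_cases h0 : width t = 0
  · refine ⟨(default, t), Subtype.ext ?_⟩
    have : tailVec y.1 = 0 := norm_eq_zero.1 (le_antisymm (h0 ▸ hw') (norm_nonneg _))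
    rw [susp_val, ht, h0, zero_smul, ← this, consVec_tailVec]
  · have hp : ‖(width t)⁻¹ • tailVec y.1‖ ≤ 1 := by
      rw [norm_smul, norm_inv, Real.norm_of_nonneg (width_nonneg t),
        inv_mul_le_iff₀ (lt_of_le_of_ne (width_nonneg t) (Ne.symm h0)), mul_one]
      exact hw'
    refine ⟨(⟨_, mem_closedBall_zero_iff.2 hp⟩, t), Subtype.ext ?_⟩
    rw [susp_val, ht, smul_inv_smul₀ h0, consVec_tailVec]

theorem susp_eq {p p' : Dn n} {t t' : I} (h : susp (p, t) = susp (p', t')) :
    t = t' ∧ (p = p' ∨ t = 0 ∨ t = 1) := by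
  have h1 := congrArg (fun z : Dn (n + 1) => z.1 0) h
  simp only [susp_val, consVec_zero] at h1
  obtain rfl : t = t' := Subtype.ext (by linarith)
  refine ⟨rfl, ?_⟩
  by_cases h0 : width t = 0
  · exact Or.inr (width_eq_zero.1 h0)
  · refine Or.inl (Subtype.ext ?_)
    have h2 := congrArg (fun z : Dn (n + 1) => tailVec z.1) h
    simp only [susp_val, tailVec_consVec] at h2
    exact smul_right_injective _ h0 h2

theorem susp_isQuotientMap : Topology.IsQuotientMap (susp (n := n)) :=
  Topology.IsQuotientMap.of_surjective_continuous susp_surjective susp.continuous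

/-- A map on the cylinder that is constant on both ends descends. -/
theorem exists_susp_lift (H : C(Dn n × I, Y)) (h0 : ∀ p p', H (p, 0) = H (p', 0))
    (h1 : ∀ p p', H (p, 1) = H (p', 1)) :
    ∃ F : C(Dn (n + 1), Y), ∀ p t, F (susp (p, t)) = H (p, t) := by
  have hf : Function.FactorsThrough H (susp (n := n)) := by
    rintro ⟨p, t⟩ ⟨p', t'⟩ he
    obtain ⟨rfl, rfl | rfl | rfl⟩ := susp_eq he
    · rfl
    · exact h0 p p'
    · exact h1 p p'
  exact ⟨susp_isQuotientMap.lift H hf,
    fun p t => DFunLike.congr_fun (susp_isQuotientMap.lift_comp H hf) (p, t)⟩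

theorem susp_hemiS (e : ℝ) (he : e ^ 2 = 1) (p : Dn n) (t : I) :
    incl (hemiS e he (susp (p, t))) = susp (incl (hemiS e he p), t) := by
  have h : √(1 - ‖(susp (p, t)).1‖ ^ 2) =
      width t * √(1 - ‖(p : EuclideanSpace ℝ (Fin n))‖ ^ 2) := by
    rw [susp_val, norm_sq_consVec, norm_smul, Real.norm_of_nonneg (width_nonneg t), mul_pow]
    conv_rhs => rw [← Real.sqrt_sq (width_nonneg t)]
    rw [← Real.sqrt_mul (sq_nonneg _)]
    congr 1
    rw [width_sq]
    ring
  refine Subtype.ext ?_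
  show snocVec (susp (p, t)).1 (e * √(1 - ‖(susp (p, t)).1‖ ^ 2)) =
    consVec (2 * (t : ℝ) - 1)
      (width t • snocVec p.1 (e * √(1 - ‖(p : EuclideanSpace ℝ (Fin n))‖ ^ 2)))
  rw [h, susp_val]
  ext i
  refine Fin.cases ?_ (fun j => ?_) i
  · rw [consVec_zero]
    show snocVec _ _ (Fin.castSucc 0) = _
    simp [snocVec, consVec]
  · refine Fin.lastCases ?_ (fun k => ?_) j
    · rw [Fin.succ_last]
      simp [snocVec, consVec]
      ring
    · rw [Fin.succ_castSucc]
      simp [snocVec, consVec, ← Fin.succ_castSucc]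
      rw [Fin.succ_castSucc, Fin.snoc_castSucc, Fin.cons_succ]
      simp

/-- The suspension commutes with the source. -/
theorem susp_source (p : Dn n) (t : I) : susp (source p, t) = source (susp (p, t)) :=
  (susp_hemiS _ _ p t).symm

/-- The suspension commutes with the target. -/
theorem susp_target (p : Dn n) (t : I) : susp (target p, t) = target (susp (p, t)) :=
  (susp_hemiS _ _ p t).symm

theorem susp_zero_eq_source (p q : Dn 0) : susp (p, (0 : I)) = source q := by
  obtain rfl := Subsingleton.elim p q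
  refine Subtype.ext ?_
  show consVec _ _ = snocVec _ _
  ext i
  obtain rfl : i = Fin.last 0 := Fin.ext (by omega)
  rw [last_snocVec]
  show consVec (2 * ((0 : I) : ℝ) - 1) _ 0 = _
  simp [Subsingleton.elim p.1 0]

theorem susp_one_eq_target (p q : Dn 0) : susp (p, (1 : I)) = target q := by
  obtain rfl := Subsingleton.elim p q
  refine Subtype.ext ?_
  show consVec _ _ = snocVec _ _
  ext i
  obtain rfl : i = Fin.last 0 := Fin.ext (by omega)
  rw [last_snocVec]
  show consVec (2 * ((1 : I) : ℝ) - 1) _ 0 = _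
  simp [Subsingleton.elim p.1 0]
  norm_num

/-- Every point of the sphere comes from a smaller sphere or an end. -/
theorem sphere_susp (z : Sn (n + 1)) :
    ∃ p t, susp (p, t) = incl z ∧ ((∃ w, incl w = p) ∨ t = 0 ∨ t = 1) := by
  rcases mem_hemisphere z with ⟨x, rfl⟩ | ⟨x, rfl⟩
  · cases n with
    | zero => exact ⟨default, 0, susp_zero_eq_source _ x, Or.inr (Or.inl rfl)⟩
    | succ m =>
      obtain ⟨⟨p, t⟩, rfl⟩ := susp_surjective x
      exact ⟨source p, t, susp_source p t, Or.inl ⟨sourceS p, rfl⟩⟩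
  · cases n with
    | zero => exact ⟨default, 1, susp_one_eq_target _ x, Or.inr (Or.inr rfl)⟩
    | succ m =>
      obtain ⟨⟨p, t⟩, rfl⟩ := susp_surjective x
      exact ⟨target p, t, susp_target p t, Or.inl ⟨targetS p, rfl⟩⟩

/-- The suspension of the sphere lies in the sphere. -/
theorem susp_incl (w : Sn n) (t : I) : ∃ z, incl z = susp (incl w, t) := by
  refine ⟨⟨(susp (incl w, t)).1, mem_sphere_zero_iff_norm.2 ?_⟩, rfl⟩
  have h := norm_sq_consVec (2 * (t : ℝ) - 1) (width t • (w : EuclideanSpace ℝ (Fin n)))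
  rw [norm_smul, Real.norm_of_nonneg (width_nonneg t), mem_sphere_zero_iff_norm.1 w.2, mul_one,
    width_sq] at h
  exact (pow_eq_one_iff_of_nonneg (norm_nonneg _) two_ne_zero).1 (h.trans (by ring))

/-- A relative homotopy between loops of discs descends to the suspension. -/
theorem hRel_of_susp {F F' : C(Dn (n + 1), Y)} (K : C((Dn n × I) × I, Y))
    (K0 : ∀ p t, K ((p, t), 0) = F (susp (p, t))) (K1 : ∀ p t, K ((p, t), 1) = F' (susp (p, t)))
    (Kb : ∀ w t s, K ((incl w, t), s) = F (susp (incl w, t)))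
    (Kl : ∀ p s, K ((p, 0), s) = F (susp (p, 0)))
    (Kr : ∀ p s, K ((p, 1), s) = F (susp (p, 1))) : HRel F F' := by
  let q : C((Dn n × I) × I, Dn (n + 1) × I) := ⟨fun z => (susp z.1, z.2), by fun_prop⟩
  have hs : Function.Surjective q := fun z => by
    obtain ⟨a, ha⟩ := susp_surjective z.1
    exact ⟨(a, z.2), Prod.ext ha rfl⟩
  have hq : Topology.IsQuotientMap q :=
    Topology.IsQuotientMap.of_surjective_continuous hs q.continuous
  have hf : Function.FactorsThrough K q := by
    rintro ⟨⟨p, t⟩, s⟩ ⟨⟨p', t'⟩, s'⟩ he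
    obtain rfl : s = s' := congrArg Prod.snd he
    obtain ⟨rfl, rfl | rfl | rfl⟩ :=
      susp_eq (show susp (p, t) = susp (p', t') from congrArg Prod.fst he)
    · rfl
    · rw [Kl, Kl, susp_zero]
    · rw [Kr, Kr, susp_one]
  have hL : ∀ p t s, hq.lift K hf (susp (p, t), s) = K ((p, t), s) := fun p t s =>
    DFunLike.congr_fun (hq.lift_comp K hf) ((p, t), s)
  refine ⟨hq.lift K hf, fun x => ?_, fun x => ?_, fun z s => ?_⟩
  · obtain ⟨⟨p, t⟩, rfl⟩ := susp_surjective x
    rw [hL, K0]
  · obtain ⟨⟨p, t⟩, rfl⟩ := susp_surjective x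
    rw [hL, K1]
  · obtain ⟨p, t, hpt, h⟩ := sphere_susp z
    rw [← hpt, hL]
    rcases h with ⟨w, rfl⟩ | rfl | rfl
    · exact Kb w t s
    · exact Kl p s
    · exact Kr p s

end Vale.Agent.P259.Disc
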